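import Vale.Agent.P088.R2.H31.EP.Dat
import Vale.Agent.P088.R2.H72.W.InvC
import Vale.Agent.P088.R2.H464.EP.Cur

/-!
# P088, stage 3: the tensors of the data package as near tensors
-/

open Set Filter
open scoped ContDiff Topology Matrix

noncomputable section

namespace Vale.Agent.P088.R2.H606.EP

open Vale.Agent.P088.LR Vale.Agent.P088.HY Vale.Agent.P088.R2.H464.Cu Vale.Agent.P088.R2.H31.EP

variable {n K : ℕ} {O : Set (V n)} {ε δ₁ δ₂ ε' δ₁' δ₂' M σ R kap Gs : ℝ} {s s₁ s₂ : MF n}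

theorem pd_it (f : V n → ℝ) (x : V n) (k : Fin n) : |pd k f x| ≤ ‖iteratedFDeriv ℝ 1 f x‖ := by
  rw [norm_iteratedFDeriv_one]
  have h := (fderiv ℝ f x).le_opNorm (Pi.single k 1)
  rw [Real.norm_eq_abs] at h
  exact h.trans (mul_le_of_le_one_right (norm_nonneg _) (norm_single_le k))

theorem pd2_it {f : V n → ℝ} (hf : ContDiff ℝ ∞ f) (x : V n) (l k : Fin n) :
    |pd l (pd k f) x| ≤ ‖iteratedFDeriv ℝ 2 f x‖ := by
  have hd : DifferentiableAt ℝ (fderiv ℝ f) x :=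
    ((hf.fderiv_right (m := ∞) le_rfl).differentiable (by simp)) x
  have e : pd l (pd k f) x = (fderiv ℝ (fderiv ℝ f) x (Pi.single l 1)) (Pi.single k 1) := by
    show fderiv ℝ (fun y => fderiv ℝ f y (Pi.single k 1)) x (Pi.single l 1) = _
    rw [fderiv_clm_apply hd (differentiableAt_const _)]
    simp
  rw [e]
  have h1 := (fderiv ℝ (fderiv ℝ f) x (Pi.single l 1)).le_opNorm (Pi.single k 1)
  have h2 := (fderiv ℝ (fderiv ℝ f) x).le_opNorm (Pi.single l 1)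
  have h3 : ‖iteratedFDeriv ℝ 2 f x‖ = ‖fderiv ℝ (fderiv ℝ f) x‖ := by
    rw [← norm_iteratedFDeriv_fderiv, norm_iteratedFDeriv_one]
  rw [h3, ← Real.norm_eq_abs]
  refine (h1.trans (mul_le_of_le_one_right (norm_nonneg _) (norm_single_le k))).trans ?_
  exact h2.trans (mul_le_of_le_one_right (norm_nonneg _) (norm_single_le l))

theorem pd_sub_c (f : V n → ℝ) (c : ℝ) (k : Fin n) : pd k (fun y => f y - c) = pd k f := by
  funext x
  show fderiv ℝ (fun y => f y - c) x _ = fderiv ℝ f x _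
  rw [fderiv_sub_const]

/-- From bounds for the iterated derivatives. -/
theorem nr_of (hs : SmM s) (hy : ∀ x, (s x).IsSymm)
    (hc : ∀ i j, ∀ m ≤ 2, ∀ x,
      ‖iteratedFDeriv ℝ m (fun x => s x i j - (1 : Matrix (Fin n) (Fin n) ℝ) i j) x‖ ≤
        ε * R⁻¹ ^ m) : Nr O ε (ε * R⁻¹) (ε * R⁻¹ ^ 2) s where
  sm i j := (hs i j).contDiffOn
  sy x i j := ((hy x).apply i j).symm
  b0 x _ i j := by
    have h := hc i j 0 (by norm_num) x
    rw [norm_iteratedFDeriv_zero, pow_zero, mul_one] at h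
    exact h
  b1 x _ k i j := by
    have h := hc i j 1 (by norm_num) x
    rw [← pd_sub_c _ ((1 : Matrix (Fin n) (Fin n) ℝ) i j) k]
    rw [pow_one] at h
    exact (pd_it _ x k).trans h
  b2 x _ l k i j := by
    have h := hc i j 2 le_rfl x
    rw [← pd_sub_c _ ((1 : Matrix (Fin n) (Fin n) ℝ) i j) k]
    exact (pd2_it ((hs i j).sub contDiff_const) x l k).trans h

theorem nr_mono (h : Nr O ε δ₁ δ₂ s) (h0 : ε ≤ ε') (h1 : δ₁ ≤ δ₁') (h2 : δ₂ ≤ δ₂') :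
    Nr O ε' δ₁' δ₂' s :=
  ⟨h.sm, h.sy, fun x hx i j => (h.b0 x hx i j).trans h0, fun x hx k i j => (h.b1 x hx k i j).trans h1,
    fun x hx l k i j => (h.b2 x hx l k i j).trans h2⟩

/-- The constant of the inverse. -/
def cI (n : ℕ) : ℝ := (H72.W.rowInv n).choose

/-- The smallness for the inverse. -/
def eI (n : ℕ) : ℝ := (H72.W.rowInv n).choose_spec.choose

theorem cI_spec (n : ℕ) : 0 < eI n ∧ 1 ≤ cI n ∧ ∀ (O : Set (V n)) (ε δ₁ δ₂ : ℝ) (s : MF n),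
    IsOpen O → Nr O ε δ₁ δ₂ s → 0 ≤ ε → ε ≤ eI n → 0 ≤ δ₁ → 0 ≤ δ₂ →
    Nr O (cI n * ε) (cI n * δ₁) (cI n * (δ₂ + δ₁ ^ 2)) (fun x => (s x)⁻¹) ∧
      ∀ x ∈ O, (s x)⁻¹ * s x = 1 ∧ s x * (s x)⁻¹ = 1 :=
  (H72.W.rowInv n).choose_spec.choose_spec

/-- The constant of the three tensors. -/
def cT (n : ℕ) : ℝ := 2 * cI n

theorem cT_ge (n : ℕ) : 2 ≤ cT n := by
  have := (cI_spec n).2.1
  unfold cT; linarith

section rg

variable (h : Rg K ε M σ R kap Gs s₁ s₂) (hK : 2 ≤ K) (hε : 0 ≤ ε) (hR : 0 < R)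
include h hK hε hR

theorem rg_n1 : Nr O (cT n * ε) (cT n * ε * R⁻¹) (cT n * ε * R⁻¹ ^ 2) s₁ := by
  have h0 := nr_of (O := O) h.sm₁ h.sy₁ fun i j m hm x => h.cl₁ i j m (hm.trans hK) x
  have hc := cT_ge n
  have h1 : ε ≤ cT n * ε := by nlinarith
  have h2 : 0 ≤ R⁻¹ := inv_nonneg.2 hR.le
  exact nr_mono h0 h1 (mul_le_mul_of_nonneg_right h1 h2)
    (mul_le_mul_of_nonneg_right h1 (by positivity))

theorem rg_n2 : Nr O (cT n * ε) (cT n * ε * R⁻¹) (cT n * ε * R⁻¹ ^ 2) s₂ := by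
  have h0 := nr_of (O := O) h.sm₂ h.sy₂ fun i j m hm x => h.cl₂ i j m (hm.trans hK) x
  have hc := cT_ge n
  have h1 : ε ≤ cT n * ε := by nlinarith
  have h2 : 0 ≤ R⁻¹ := inv_nonneg.2 hR.le
  exact nr_mono h0 h1 (mul_le_mul_of_nonneg_right h1 h2)
    (mul_le_mul_of_nonneg_right h1 (by positivity))

theorem rg_ng (hO : IsOpen O) (hε0 : ε ≤ eI n) (hε1 : ε ≤ 1) :
    Nr O (cT n * ε) (cT n * ε * R⁻¹) (cT n * ε * R⁻¹ ^ 2) (gi s₁) ∧
      ∀ x ∈ O, gi s₁ x * s₁ x = 1 ∧ s₁ x * gi s₁ x = 1 := by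
  have h0 := nr_of (O := O) h.sm₁ h.sy₁ fun i j m hm x => h.cl₁ i j m (hm.trans hK) x
  have h2 : 0 ≤ R⁻¹ := inv_nonneg.2 hR.le
  obtain ⟨-, hc, H⟩ := cI_spec n
  obtain ⟨H1, H2⟩ := H O _ _ _ s₁ hO h0 hε hε0 (by positivity) (by positivity)
  refine ⟨nr_mono H1 ?_ ?_ ?_, H2⟩
  · unfold cT
    have : 0 ≤ cI n * ε := by positivity
    nlinarith
  · unfold cT
    have : 0 ≤ cI n * (ε * R⁻¹) := by positivity
    nlinarith
  · have e : cT n * ε * R⁻¹ ^ 2 = cI n * (ε * R⁻¹ ^ 2 + ε * R⁻¹ ^ 2) := by unfold cT; ring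
    rw [e]
    refine mul_le_mul_of_nonneg_left (add_le_add le_rfl ?_) (by linarith)
    have h3 : 0 ≤ ε * R⁻¹ ^ 2 := by positivity
    calc (ε * R⁻¹) ^ 2 = ε * (ε * R⁻¹ ^ 2) := by ring
      _ ≤ 1 * (ε * R⁻¹ ^ 2) := mul_le_mul_of_nonneg_right hε1 h3
      _ = _ := one_mul _

/-- The difference of the tensors where the level is at least `L`. -/
theorem rg_dst {L : ℝ} (hM : 0 ≤ M) (hL : ∀ x ∈ O, L ≤ lv n σ R kap Gs x) :
    Dst O (ε * Real.exp (-(M * L))) (ε * R⁻¹ * Real.exp (-(M * L))) s₁ s₂ := by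
  have key : ∀ x ∈ O, min 1 (Real.exp (-(M * lv n σ R kap Gs x))) ≤ Real.exp (-(M * L)) :=
    fun x hx => (min_le_right _ _).trans (Real.exp_le_exp.2 (by
      have := mul_le_mul_of_nonneg_left (hL x hx) hM
      linarith))
  have h2 : 0 ≤ R⁻¹ := inv_nonneg.2 hR.le
  refine ⟨fun x hx i j => ?_, fun x hx k i j => ?_⟩
  · have h1 := h.ds i j 0 (by omega) x
    rw [norm_iteratedFDeriv_zero, pow_zero, mul_one, Real.norm_eq_abs, abs_sub_comm] at h1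
    exact h1.trans (mul_le_mul_of_nonneg_left (key x hx) hε)
  · have h1 := h.ds i j 1 (by omega) x
    have d1 : DifferentiableAt ℝ (fun y => s₁ y i j) x := (h.sm₁ i j).differentiable (by simp) x
    have d2 : DifferentiableAt ℝ (fun y => s₂ y i j) x := (h.sm₂ i j).differentiable (by simp) x
    have e : pd k (fun y => s₂ y i j - s₁ y i j) x =
        pd k (fun y => s₂ y i j) x - pd k (fun y => s₁ y i j) x := by
      show fderiv ℝ (fun y => s₂ y i j - s₁ y i j) x _ = fderiv ℝ _ x _ - fderiv ℝ _ x _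
      rw [fderiv_fun_sub d2 d1]
      rfl
    have h3 := pd_it (fun y => s₂ y i j - s₁ y i j) x k
    rw [e, abs_sub_comm] at h3
    rw [pow_one] at h1
    exact (h3.trans h1).trans (mul_le_mul_of_nonneg_left (key x hx) (by positivity))

end rg

end Vale.Agent.P088.R2.H606.EP
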