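import Vale.Agent.P088.R2.H31.EP.Pack
import Vale.Agent.P088.R2.H31.EP.CstL

/-!
# P088, stage 3: the slope `Φ` of the data package, `N = Φ'`, `K = Φ''`, `E = e^u`
-/

open Set Filter
open scoped ContDiff Topology

noncomputable section

namespace Vale.Agent.P088.R2.H606.EP

open Vale.Agent.P088.LR Vale.Agent.P088.HY Vale.Agent.P088.R2.H31.EP

variable {n : ℕ} {q : Cst} {d : Pk n} {u : ℝ}

/-! ## The level `l₀` -/

theorem l0_ge (h : PkOk q d) (hC : 1 ≤ q.Ck) (hR : 1 ≤ q.R) : 0 ≤ d.l₀ q := by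
  have hR0 : 0 < q.R := by linarith
  have h1 : q.R ≤ d.kap := by
    have h2 : q.R ^ (1 : ℝ) ≤ q.R ^ q.Ck := Real.rpow_le_rpow_of_exponent_le hR hC
    rw [Real.rpow_one] at h2
    exact h2.trans h.kC
  have h2 : 0 ≤ Real.log (d.kap / q.R) := Real.log_nonneg ((one_le_div hR0).2 h1)
  have h3 : q.R * d.Gs ≤ 0 := mul_nonpos_of_nonneg_of_nonpos hR0.le h.G0
  unfold Pk.l₀
  linarith

theorem l0_le (h : PkOk q d) (hR : 1 ≤ q.R) : d.l₀ q ≤ 2 * q.η * q.R := by
  have hR0 : 0 < q.R := by linarith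
  have hk : 0 < d.kap := by linarith [h.k1]
  have h1 : Real.log (d.kap / q.R) ≤ q.η * q.R := by
    rw [Real.log_div hk.ne' hR0.ne']
    have h2 : Real.log d.kap ≤ q.η * q.R := by
      have := Real.log_le_log hk h.kη
      rwa [Real.log_exp] at this
    have h3 : 0 ≤ Real.log q.R := Real.log_nonneg hR
    linarith
  have h2 : -(q.R * d.Gs) ≤ q.R * q.η := by
    have := mul_le_mul_of_nonneg_left h.G1 hR0.le
    linarith
  unfold Pk.l₀
  linarith

/-- The bound of the slope below `uth`. -/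
def Nb (q : Cst) : ℝ := (1 + |q.ph.CT|) * (|q.ph.Cb| * q.M₀)

/-- The numbers which are needed. -/
structure Nm (q : Cst) : Prop where
  R1 : 1 ≤ q.R
  C1 : 1 ≤ q.Ck
  e0 : 0 < q.η
  e1 : q.η ≤ 1 / 1000
  M1 : 4 ≤ q.M₀
  M2 : 2 ≤ q.M₀ ^ (3 / 50 : ℝ)
  M3 : 10 / 9 ≤ q.M₀ ^ (1 / 10 : ℝ)
  a0 : 0 < q.aC
  a1 : q.aC ≤ 1
  a2 : 1 ≤ q.nm
  L0 : 2 ≤ q.L
  big : 2 * Nb q ^ (13 / 5 : ℝ) < Real.exp (11 / 10 * q.R)
  R2 : 40 ≤ q.R

variable (h : PkOk q d) (m : Nm q)
include h m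

theorem l0_ge' : 0 ≤ d.l₀ q := l0_ge h m.C1 m.R1

theorem l0_le' : d.l₀ q ≤ q.R / 500 := by
  refine (l0_le h m.R1).trans ?_
  have := m.e1
  have := m.R1
  nlinarith

omit m in
theorem N_ge (u : ℝ) : q.M₀ ≤ deriv d.Φ u := (h.ph.isΦ.n1 u).trans (h.top.l1 u)

theorem N_pos (u : ℝ) : 0 < deriv d.Φ u := by
  have := N_ge h u
  have := m.M1
  linarith

omit m in
theorem K_pos (u : ℝ) : 0 < deriv (deriv d.Φ) u := h.top.k0 u

theorem K_le (hu : u ≤ d.uta q) : deriv (deriv d.Φ) u ≤ 41 / 20 * deriv d.Φ u := by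
  have := h.top.k1 u hu
  linarith

omit m in
theorem K_dj (j : ℕ) (hu : u ≤ d.uta q) :
    |iteratedDeriv (j + 2) d.Φ u| ≤ q.ph.Ct j * deriv (deriv d.Φ) u := h.top.kd j u hu

/-- The slope is bounded below `uth`. -/
theorem N_le_Nb (hu : u ≤ d.uth q) : deriv d.Φ u ≤ Nb q := by
  have h1 := h.top.c1 u hu
  have h2 := h.ph.isΦ.n2 u
  have h3 := h.ph.isΦ.n1 u
  have hM := m.M1
  have h4 : Real.exp (u - d.uth q) ≤ 1 := Real.exp_le_one_iff.2 (by linarith)
  have h5 := Real.exp_pos (u - d.uth q)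
  have h6 : 1 + q.ph.CT * Real.exp (u - d.uth q) ≤ 1 + |q.ph.CT| := by
    have h7 : q.ph.CT * Real.exp (u - d.uth q) ≤ |q.ph.CT| * 1 :=
      mul_le_mul (le_abs_self _) h4 h5.le (abs_nonneg _)
    linarith
  have h7 : deriv d.Φ₁ u ≤ |q.ph.Cb| * q.M₀ :=
    h2.trans (mul_le_mul_of_nonneg_right (le_abs_self _) (by linarith))
  unfold Nb
  refine h1.trans ?_
  have h8 : 0 ≤ deriv d.Φ₁ u := by linarith
  have h9 := abs_nonneg q.ph.CT
  exact mul_le_mul h6 h7 h8 (by linarith)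

omit h in
theorem Nb_pos (hq : ∃ n, ∃ d : Pk n, PkOk q d) : 0 < Nb q := by
  obtain ⟨n, d, h⟩ := hq
  have h1 := N_le_Nb h m (u := d.uth q) le_rfl
  have h2 := N_pos h m (d.uth q)
  linarith

/-- The slope on the reverse pass. -/
theorem N_rev (h1 : d.uth q ≤ u) (h2 : u ≤ d.uta q) :
    deriv d.Φ u = deriv d.Φ (d.uth q) * Real.exp (2 * (u - d.uth q)) := h.top.y1 u h1 h2

omit m in
theorem K_rev (h1 : d.uth q ≤ u) (h2 : u ≤ d.uta q) :
    deriv (deriv d.Φ) u = 2 * deriv d.Φ u := h.top.x1 u h1 h2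

omit m in
theorem N_mono : Monotone (deriv d.Φ) := by
  have hd : Differentiable ℝ (deriv d.Φ) :=
    ((contDiff_infty_iff_deriv.1 h.top.sm).2).differentiable (by simp)
  exact monotone_of_deriv_nonneg hd fun u => (K_pos h u).le

theorem uth_ta : d.uth q ≤ d.uta q := by
  unfold Pk.uth Pk.uta
  linarith [m.R1]

/-- The second growth ends before the slope is small against `e^u` again. -/
theorem le_uta (hu : u ≤ d.utb q) (hN : deriv d.Φ u ≤ q.aC * Real.exp u) : u ≤ d.uta q := by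
  by_contra hc
  rw [not_le] at hc
  have l0 := l0_ge' h m
  have l1 := l0_le' h m
  have hR := m.R1
  have hR2 := m.R2
  have hM := m.M1
  have a1 := m.a1
  have e1 : deriv d.Φ (d.uta q) = deriv d.Φ (d.uth q) * Real.exp (2 * (d.uta q - d.uth q)) :=
    N_rev h m (uth_ta h m) le_rfl
  have e2 : 4 ≤ deriv d.Φ (d.uth q) := by linarith [N_ge h (d.uth q)]
  have e3 : Real.exp (d.uta q + 1) ≤ deriv d.Φ (d.uta q) := by
    rw [e1]
    have e4 : Real.exp (d.uta q + 1) ≤ Real.exp (2 * (d.uta q - d.uth q)) := by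
      rw [Real.exp_le_exp]
      unfold Pk.uta Pk.uth
      linarith
    have := Real.exp_pos (2 * (d.uta q - d.uth q))
    nlinarith
  have hM2 : Monotone (deriv d.Φ) := N_mono h
  have key : Real.exp u < deriv d.Φ u := by
    rcases le_total u (d.uta q + 1) with h1 | h1
    · rcases h1.eq_or_lt with h2 | h2
      · rw [h2]
        have h3 : deriv d.Φ (d.uta q) < deriv d.Φ (d.uta q + 1) := by
          have hd : Differentiable ℝ (deriv d.Φ) :=
            ((contDiff_infty_iff_deriv.1 h.top.sm).2).differentiable (by simp)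
          exact strictMono_of_deriv_pos (fun u => K_pos h u) (by linarith)
        linarith
      · have h3 : Real.exp u < Real.exp (d.uta q + 1) := Real.exp_lt_exp.2 h2
        have h4 := hM2 hc.le
        linarith
    · have h2 := h.top.y3 u h1 hu
      have h3 := hM2 (by linarith : d.uta q ≤ d.uta q + 1)
      have h4 : deriv d.Φ (d.uta q) < deriv d.Φ (d.uta q + 1) :=
        strictMono_of_deriv_pos (fun u => K_pos h u) (by linarith)
      rw [h2]
      have h5 : Real.exp u = Real.exp (d.uta q + 1) * Real.exp (u - (d.uta q + 1)) := by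
        rw [← Real.exp_add]; congr 1; ring
      have h6 : Real.exp (u - (d.uta q + 1)) ≤ Real.exp (q.L * (u - (d.uta q + 1))) := by
        rw [Real.exp_le_exp]
        have := m.L0
        nlinarith
      have h7 := Real.exp_pos (u - (d.uta q + 1))
      rw [h5]
      calc Real.exp (d.uta q + 1) * Real.exp (u - (d.uta q + 1)) <
          deriv d.Φ (d.uta q + 1) * Real.exp (u - (d.uta q + 1)) :=
            mul_lt_mul_of_pos_right (by linarith) h7
        _ ≤ _ := mul_le_mul_of_nonneg_left h6 (N_pos h m _).le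
  have h8 := Real.exp_pos u
  nlinarith

/-- The level `E ≤ 2 N^{13/5}` is not reached between `uth / 2` and `uth`. -/
theorem no_mid (h1 : d.uth q / 2 ≤ u) (h2 : u ≤ d.uth q) :
    2 * deriv d.Φ u ^ (13 / 5 : ℝ) < Real.exp u := by
  have h3 := N_le_Nb h m h2
  have h4 := N_pos h m u
  have h5 : deriv d.Φ u ^ (13 / 5 : ℝ) ≤ Nb q ^ (13 / 5 : ℝ) :=
    Real.rpow_le_rpow h4.le h3 (by norm_num)
  have h6 : Real.exp (11 / 10 * q.R) ≤ Real.exp u := by
    rw [Real.exp_le_exp]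
    have := l0_ge' h m
    unfold Pk.uth at h1
    linarith
  have := m.big
  linarith

/-- **The zone `E ≤ 2 N^{13/5}`.** -/
theorem slp_a (hu : u ≤ d.uta q) (h1 : deriv d.Φ u ≤ q.aC * Real.exp u)
    (h2 : Real.exp u ≤ 2 * deriv d.Φ u ^ (13 / 5 : ℝ)) :
    deriv d.Φ u ^ (9 / 10 : ℝ) ≤ deriv (deriv d.Φ) u ∧
      deriv d.Φ u ^ 2 ≤ 2 * q.aC * (Real.exp u * deriv (deriv d.Φ) u) := by
  have hN := N_pos h m u
  have hE := Real.exp_pos u
  have hMN := N_ge h u
  have hM := m.M1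
  have a0 := m.a0
  have hN1 : 1 ≤ deriv d.Φ u := by linarith
  have h9 : deriv d.Φ u ^ (9 / 10 : ℝ) * deriv d.Φ u ^ (1 / 10 : ℝ) = deriv d.Φ u := by
    rw [← Real.rpow_add hN]; norm_num
  have h10 : 10 / 9 ≤ deriv d.Φ u ^ (1 / 10 : ℝ) :=
    m.M3.trans (Real.rpow_le_rpow (by linarith) hMN (by norm_num))
  have h11 : deriv d.Φ u ^ (9 / 10 : ℝ) ≤ 9 / 10 * deriv d.Φ u := by
    have := Real.rpow_pos_of_pos hN (9 / 10)
    nlinarith
  -- from `K ≥ (9/10) N`
  have fin : 9 / 10 * deriv d.Φ u ≤ deriv (deriv d.Φ) u →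
      deriv d.Φ u ^ (9 / 10 : ℝ) ≤ deriv (deriv d.Φ) u ∧
      deriv d.Φ u ^ 2 ≤ 2 * q.aC * (Real.exp u * deriv (deriv d.Φ) u) := by
    intro hK
    refine ⟨h11.trans hK, ?_⟩
    have h3 : deriv d.Φ u ^ 2 ≤ q.aC * Real.exp u * deriv d.Φ u := by
      rw [pow_two]; exact mul_le_mul_of_nonneg_right h1 hN.le
    have h4 : q.aC * Real.exp u * deriv d.Φ u ≤
        q.aC * Real.exp u * (2 * deriv (deriv d.Φ) u) :=
      mul_le_mul_of_nonneg_left (by linarith) (by positivity)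
    linarith
  rcases le_total u (d.uth q / 2) with h3 | h3
  · have e1 := h.top.e1 u h3
    have e2 := h.top.e2 u h3
    rcases le_total (q.ν₁ * Real.exp u) (deriv d.Φ u) with h4 | h4
    · refine fin ?_
      have h5 : deriv d.Φ u ≤ q.nm * Real.exp u := by
        have := m.a1
        have := m.a2
        nlinarith
      rw [e1] at h4 h5
      have h6 := h.ph.isΦ.p1 u h4 h5
      rw [e2, e1, h6]
    · have h5 : Real.exp u ≤ 1 * deriv d.Φ u ^ (133 / 50 : ℝ) := by
        have h6 : deriv d.Φ u ^ (133 / 50 : ℝ) =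
            deriv d.Φ u ^ (13 / 5 : ℝ) * deriv d.Φ u ^ (3 / 50 : ℝ) := by
          rw [← Real.rpow_add hN]; norm_num
        have h7 : 2 ≤ deriv d.Φ u ^ (3 / 50 : ℝ) :=
          m.M2.trans (Real.rpow_le_rpow (by linarith) hMN (by norm_num))
        have h8 := Real.rpow_pos_of_pos hN (13 / 5)
        rw [h6]
        nlinarith
      rw [e1] at h4 h5
      have h6 := h.ph.isΦ.p2 u h4 h5
      rw [← e1, ← e2] at h6
      have h7 : 0 ≤ 1 / q.aC * deriv d.Φ u ^ 2 / Real.exp u := by positivity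
      have h8 := Real.rpow_nonneg hN.le (9 / 10)
      refine ⟨by linarith, ?_⟩
      have h9 : 1 / q.aC * deriv d.Φ u ^ 2 / Real.exp u ≤ deriv (deriv d.Φ) u := by linarith
      rw [div_le_iff₀ hE, one_div, inv_mul_le_iff₀ a0] at h9
      have h10 : 0 ≤ q.aC * (Real.exp u * deriv (deriv d.Φ) u) := by
        have := K_pos h u
        positivity
      linarith
  · rcases le_total u (d.uth q) with h4 | h4
    · have := no_mid h m h3 h4
      linarith
    · refine fin ?_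
      rw [K_rev h h4 hu]
      linarith

end Vale.Agent.P088.R2.H606.EP
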