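import Vale.Agent.P088.R2.H31.EP.Pack

/-!
# P088, stage 3: the numbers of the profile for `r < 1`
-/

open Set Filter
open scoped ContDiff Topology

noncomputable section

namespace Vale.Agent.P088.R2.H606.EP

open Vale.Agent.P088.R2.H31.EP Vale.Agent.P088.R2.H644

variable {e₁ s : ℝ}

theorem pp_ok (he : 0 < e₁) : PP 2 Li e₁ rp dp where
  θ0 := by norm_num
  L0 := by norm_num [Li]
  ε0 := he
  r0 := by norm_num [rp]
  δ0 := by norm_num [dp]
  le := by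
    have h1 := Real.add_one_le_exp (-(1 / 10 : ℝ))
    have h2 : Real.exp (1 / 10) * Real.exp (-(1 / 10)) = 1 := by
      rw [← Real.exp_add]; simp
    have h3 := Real.exp_pos (1 / 10 : ℝ)
    unfold Li dp
    nlinarith

/-- `S'`. -/
def prS₁ (e₁ : ℝ) : ℝ → ℝ := Ph1 2 Li e₁ rp dp

/-- `S''`. -/
def prS₂ (e₁ : ℝ) : ℝ → ℝ := Ph2 2 Li e₁ rp dp

/-- `S'''`. -/
def prS₃ (e₁ : ℝ) : ℝ → ℝ := deriv (prS₂ e₁)

theorem prS_d1 (he : 0 < e₁) (s : ℝ) : HasDerivAt (prS e₁) (prS₁ e₁ s) s := (pp_ok he).d2_Ph.d1 s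

theorem prS_d2 (he : 0 < e₁) (s : ℝ) : HasDerivAt (prS₁ e₁) (prS₂ e₁ s) s := (pp_ok he).d2_Ph.d2 s

theorem prS_sm (he : 0 < e₁) : ContDiff ℝ ∞ (prS e₁) := (pp_ok he).contDiff_Ph

theorem prS₂_sm (he : 0 < e₁) : ContDiff ℝ ∞ (prS₂ e₁) := by
  have h1 : deriv (prS e₁) = prS₁ e₁ := funext fun s => (prS_d1 he s).deriv
  have h2 : deriv (prS₁ e₁) = prS₂ e₁ := funext fun s => (prS_d2 he s).deriv
  have h3 : ContDiff ℝ ∞ (prS₁ e₁) := h1 ▸ (contDiff_infty_iff_deriv.1 (prS_sm he)).2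
  exact h2 ▸ (contDiff_infty_iff_deriv.1 h3).2

theorem prS_d3 (he : 0 < e₁) (s : ℝ) : HasDerivAt (prS₂ e₁) (prS₃ e₁ s) s :=
  ((prS₂_sm he).differentiable (by simp) s).hasDerivAt

theorem rp_sq : (1 : ℝ) ≤ rp ^ 2 := by norm_num [rp]

theorem prS_eq (he : 0 < e₁) (h1 : s ≤ 1) : prS e₁ s = s * St 2 (4 * s) := by
  have h := (pp_ok he).Ph_eq (s := s) (h1.trans rp_sq)
  unfold prS
  rw [h]
  unfold Fs
  norm_num

theorem prS₁_eq (he : 0 < e₁) (h1 : s ≤ 1) : prS₁ e₁ s = St 1 (4 * s) / 2 := by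
  have h := (pp_ok he).Ph1_eq (s := s) (h1.trans rp_sq)
  unfold prS₁
  rw [h]
  unfold Fs1
  norm_num

theorem prS₂_eq (he : 0 < e₁) (h1 : s < 1) : prS₂ e₁ s = St 2 (4 * s) - St 3 (4 * s) := by
  have h := (pp_ok he).Ph2_eq (s := s) (h1.trans_le rp_sq)
  unfold prS₂
  rw [h]
  unfold Fs2
  norm_num

theorem prS₃_eq (he : 0 < e₁) (h1 : s < 1) :
    prS₃ e₁ s = 4 * (dSt 2 (4 * s) - dSt 3 (4 * s)) := by
  have e : prS₂ e₁ =ᶠ[𝓝 s] fun s => St 2 (4 * s) - St 3 (4 * s) := by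
    filter_upwards [Iio_mem_nhds h1] with u hu using prS₂_eq he hu
  unfold prS₃
  rw [e.deriv_eq]
  have h4 : HasDerivAt (fun s : ℝ => 4 * s) 4 s := by simpa using (hasDerivAt_id s).const_mul 4
  have a := ((hasDerivAt_St 2 (4 * s)).comp s h4).sub ((hasDerivAt_St 3 (4 * s)).comp s h4)
  rw [show (fun s => St 2 (4 * s) - St 3 (4 * s)) =
    (St 2 ∘ fun s => 4 * s) - (St 3 ∘ fun s => 4 * s) from rfl, a.deriv]
  ring

theorem St_le8 (m : ℕ) {x : ℝ} (h0 : 0 ≤ x) (h1 : x ≤ 4) : St m x ≤ 8 := by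
  have e1 : ∀ m, St m x ≤ St 0 x := by
    intro m
    induction m with
    | zero => exact le_rfl
    | succ m ih => exact (St_succ_le' h0 m).trans ih
  have e2 : St 0 x ≤ St 0 4 := St_mono 0 h0 (by norm_num : (0 : ℝ) ≤ 4) h1
  have e3 : St 0 4 = Real.cosh 2 := by
    have := St_zero_sq 2
    norm_num at this
    exact this
  have e4 : Real.cosh 2 ≤ 8 := by
    rw [Real.cosh_eq]
    have h2 : Real.exp 2 ≤ 8 := by
      have h3 := Real.exp_one_lt_d9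
      have h4 : Real.exp 2 = Real.exp 1 * Real.exp 1 := by rw [← Real.exp_add]; norm_num
      have h5 := Real.exp_pos 1
      rw [h4]
      nlinarith
    have h3 : Real.exp (-2) ≤ 8 := by
      have : Real.exp (-2) ≤ 1 := Real.exp_le_one_iff.2 (by norm_num)
      linarith
    linarith
  rw [e3] at e2
  exact (e1 m).trans (e2.trans e4)

/-- The numbers of the profile. -/
structure Pn (e₁ s : ℝ) : Prop where
  lo : s / 2 ≤ prS e₁ s
  hi : prS e₁ s ≤ 8 * s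
  l1 : 1 / 2 ≤ prS₁ e₁ s
  h1 : prS₁ e₁ s ≤ 1 / 2 + 16 * s
  b1 : prS₁ e₁ s ≤ 4
  l2 : 0 ≤ prS₂ e₁ s
  h2 : prS₂ e₁ s ≤ 8
  h3 : |prS₃ e₁ s| ≤ 112

theorem pn_ok (he : 0 < e₁) (h0 : 0 ≤ s) (h1 : s < 1) : Pn e₁ s := by
  have x0 : 0 ≤ 4 * s := by linarith
  have x1 : 4 * s ≤ 4 := by linarith
  have b := fun m => St_le8 m x0 x1
  have p := fun m => St_nonneg x0 m
  have h2 := half_le_St_two x0
  refine ⟨?_, ?_, ?_, ?_, ?_, ?_, ?_, ?_⟩
  · rw [prS_eq he h1.le]; nlinarith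
  · rw [prS_eq he h1.le]; nlinarith [b 2]
  · rw [prS₁_eq he h1.le]; linarith [St_one_le x0]
  · rw [prS₁_eq he h1.le]
    have := St_step 1 (4 * s)
    norm_num at this
    rw [this]
    nlinarith [b 3]
  · rw [prS₁_eq he h1.le]; linarith [b 1]
  · rw [prS₂_eq he h1]; linarith [St_succ_le' x0 2]
  · rw [prS₂_eq he h1]; linarith [b 2, p 3]
  · rw [prS₃_eq he h1]
    have e2 : |dSt 2 (4 * s)| ≤ 12 := by
      unfold dSt
      have a1 := b 3
      have a2 := b 4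
      have a3 := p 3
      have a4 := p 4
      rw [abs_le]
      constructor <;> push_cast <;> linarith
    have e3 : |dSt 3 (4 * s)| ≤ 16 := by
      unfold dSt
      have a1 := b 4
      have a2 := b 5
      have a3 := p 4
      have a4 := p 5
      rw [abs_le]
      constructor <;> push_cast <;> linarith
    rw [abs_mul, abs_of_pos (by norm_num : (0 : ℝ) < 4)]
    have := abs_sub (dSt 2 (4 * s)) (dSt 3 (4 * s))
    linarith

/-- The formula of the profile. -/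
theorem prS_cosh (he : 0 < e₁) {r : ℝ} (h : r ^ 2 ≤ 1) :
    4 * prS e₁ (r ^ 2) = Real.cosh (2 * r) - 1 := by
  have h1 := (pp_ok he).Ph_eq (s := r ^ 2) (h.trans rp_sq)
  have h2 := Fs_sq_mul 2 r
  unfold prS
  rw [h1, ← h2]
  norm_num

end Vale.Agent.P088.R2.H606.EP
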