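import Vale.Agent.P088.R2.H606.EP.Ev
import Vale.Agent.P088.R2.H932.EP.Pk4
import Vale.Agent.P088.R2.H509.EP.Side

/-!
# P088, stage 3: the points of zone II

`Al`: what is known where one of the leaves `z2a`, `z2b` is alive.
-/

open Set Filter
open scoped ContDiff Topology Matrix

noncomputable section

namespace Vale.Agent.P088.R2.H606.EP

open Vale.Agent.P088.LR Vale.Agent.P088.HY Vale.Agent.P088.R2.H464.Cu Vale.Agent.P088.R2.H31.EP
open Vale.Agent.P088.R2.H932.EP (Cd NrC Ow dN m1x le_m1x)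
open Vale.Agent.P088.R2.H867.EP (Zo Near)

variable {n : ℕ} {q : Cst} {d : Pk n} {z : VV n} {u a X : ℝ}

/-- One of the leaves of zone II is alive. -/
def Z2 (q : Cst) (d : Pk n) (z : VV n) : Prop := d.ch q .z2a z ≠ 0 ∨ d.ch q .z2b z ≠ 0

/-- The two parts. -/
def Z2ab (q : Cst) (d : Pk n) (z : VV n) : Prop :=
  (d.E q z ≤ 2 * d.N q z ^ (13 / 5 : ℝ) ∧ q.cK * d.Kf q z ≤ d.m q z) ∨
    (d.N q z ^ (13 / 5 : ℝ) ≤ d.E q z ∧ d.m₁ q (d.u q z) ≤ d.m q z)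

/-- The numbers. -/
structure Zn (n : ℕ) (a X : ℝ) (q : Cst) : Prop extends Lm n q where
  nr : NrC n q
  ap : 0 < a
  aK : 2 * q.aC ≤ a ^ 2 * q.cK
  aM : 2 ≤ a ^ 2 * q.M₀ ^ (3 / 5 : ℝ)
  k0 : 0 < q.cK
  X0 : 1 ≤ X
  X1 : X ≤ q.cK * q.M₀ ^ (9 / 10 : ℝ)
  X2 : 2 * X ≤ q.M₀ ^ (169 / 250 : ℝ)
  X3 : 2 * X * q.σ ≤ q.CB * q.R
  X4 : 2 * Nb q * q.σ ≤ q.CB * q.R
  bg : Nb q ^ (133 / 50 : ℝ) < Real.exp (11 / 10 * q.R)
  c2 : 2 * q.c₀ ≤ a
  M4 : 400 ≤ Real.log q.M₀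
  M5 : 10 * (n : ℝ) ≤ Real.log q.M₀

/-- **The points of zone II.** -/
structure Al (a X : ℝ) (q : Cst) (d : Pk n) (z : VV n) : Prop where
  cd : Cd (dN q) (Ow n q.σ q.R) (gi d.s₁) d.l (d.μc q) (d.u q) z
  lo : Loc q d z
  r4 : d.r2 z ≤ 4 * q.c₀ ^ 2
  r0 : 0 < d.r2 z
  ta : d.u q z ≤ d.uta q
  Na : d.N q z ≤ q.aC * d.E q z
  u0 : 0 ≤ d.u q z
  NE : d.N q z ^ 2 ≤ a ^ 2 * (d.E q z * d.m q z)
  mX : X ≤ d.m q z
  ab : Z2ab q d z

/-- The level is high. -/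
theorem Al.l_ge (A : Al a X q d z) (h : PkOk q d) (m : Zn n a X q) :
    Real.log (d.N q z) ≤ d.u q z ∧ 400 ≤ Real.log (d.N q z) ∧ 199 ≤ d.l (mid z) ∧
      5 * n - 1 ≤ d.l (mid z) := by
  have hN0 : 0 < d.N q z := N_pos h m.toNm _
  have hE : 0 < d.E q z := Real.exp_pos _
  have h1 : d.N q z ≤ d.E q z := A.Na.trans (mul_le_of_le_one_left hE.le m.a1)
  have h2 : Real.log (d.N q z) ≤ d.u q z := by
    have := Real.log_le_log hN0 h1
    rwa [show Real.log (d.E q z) = d.u q z from Real.log_exp _] at this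
  have h3 : Real.log q.M₀ ≤ Real.log (d.N q z) :=
    Real.log_le_log (by linarith [m.M1]) (N_ge h _)
  have h4 := m.M4
  have h5 := (abs_le.1 A.lo.um).2
  have h6 := m.M5
  exact ⟨h2, by linarith, by linarith, by linarith⟩

/-- The core threshold. -/
theorem m1_ge (h0 : 0 < q.σ) (h1 : 0 < q.CB) (h2 : 0 < q.R) :
    1 / 2 * min (Real.exp (26 / 100 * u)) (q.CB * q.R / q.σ) ≤ d.m₁ q u := by
  have hx := d.ξ_is q
  have hc : 0 < q.σ / (q.CB * q.R) := by positivity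
  refine le_trans ?_ (le_m1x hc hx u)
  have h3 : q.CB * q.R / q.σ ≤ (q.σ / (q.CB * q.R) * d.ξ q u)⁻¹ := by
    rw [le_inv_comm₀ (by positivity) (mul_pos hc (hx.pos u)), inv_div]
    exact mul_le_of_le_one_right hc.le (hx.le u)
  exact mul_le_mul_of_nonneg_left (min_le_min le_rfl h3) (by norm_num)

variable (h : PkOk q d) (m : Zn n a X q)
include h m

omit h in
theorem Zn.R0 : 0 < q.R := by linarith [m.R1]

omit h in
theorem Zn.CB0 : 0 < q.CB := by linarith [m.nr.CB1]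

/-- `E^(13/50) ≥ N^(169/250)`. -/
theorem E_pow (hB : d.N q z ^ (13 / 5 : ℝ) ≤ d.E q z) :
    d.N q z ^ (169 / 250 : ℝ) ≤ Real.exp (26 / 100 * d.u q z) := by
  have hN : 0 < d.N q z := N_pos h m.toNm _
  have h1 := Real.rpow_le_rpow (Real.rpow_nonneg hN.le _) hB (by norm_num : (0 : ℝ) ≤ 13 / 50)
  rw [← Real.rpow_mul hN.le] at h1
  have e1 : (13 / 5 : ℝ) * (13 / 50) = 169 / 250 := by norm_num
  have e2 : d.E q z ^ (13 / 50 : ℝ) = Real.exp (26 / 100 * d.u q z) := by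
    unfold Pk.E
    rw [← Real.exp_mul]
    congr 1
    ring
  rwa [e1, e2] at h1

theorem pos_m (h2 : Z2ab q d z) : 0 < d.m q z := by
  rcases h2 with ⟨-, h2⟩ | ⟨-, h2⟩
  · exact lt_of_lt_of_le (mul_pos m.k0 (K_pos h _)) h2
  · refine lt_of_lt_of_le ?_ (le_trans (m1_ge m.σ0 m.CB0 m.R0) h2)
    have := m.CB0
    have := m.R0
    have := m.σ0
    have : 0 < min (Real.exp (26 / 100 * d.u q z)) (q.CB * q.R / q.σ) :=
      lt_min (Real.exp_pos _) (by positivity)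
    positivity

/-- `m ≥ X`. -/
theorem m_big (hu : d.u q z ≤ d.uta q) (hN : d.N q z ≤ q.aC * d.E q z) (h2 : Z2ab q d z) :
    X ≤ d.m q z := by
  have hM := m.M1
  have hMN : q.M₀ ≤ d.N q z := N_ge h _
  rcases h2 with ⟨hC, h2⟩ | ⟨hB, h2⟩
  · refine le_trans ?_ h2
    refine m.X1.trans (mul_le_mul_of_nonneg_left ?_ m.k0.le)
    refine le_trans ?_ (slp_a h m.toNm hu hN hC).1
    exact Real.rpow_le_rpow (by linarith) hMN (by norm_num)
  · refine le_trans ?_ h2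
    refine le_trans ?_ (m1_ge m.σ0 m.CB0 m.R0)
    have h3 : 2 * X ≤ Real.exp (26 / 100 * d.u q z) :=
      m.X2.trans ((Real.rpow_le_rpow (by linarith) hMN (by norm_num)).trans (E_pow h m hB))
    have h4 : 2 * X ≤ q.CB * q.R / q.σ := by
      rw [le_div_iff₀ m.σ0]
      exact m.X3
    have := le_min h3 h4
    linarith

/-- `N ≤ a E r`. -/
theorem N_small (hu : d.u q z ≤ d.uta q) (hN : d.N q z ≤ q.aC * d.E q z) (h2 : Z2ab q d z) :
    d.N q z ^ 2 ≤ a ^ 2 * (d.E q z * d.m q z) := by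
  have hM := m.M1
  have hMN : q.M₀ ≤ d.N q z := N_ge h _
  have hN0 : 0 < d.N q z := N_pos h m.toNm _
  have hE : 0 < d.E q z := Real.exp_pos _
  have ha := m.ap
  rcases h2 with ⟨hC, h2⟩ | ⟨hB, h2⟩
  · have h3 := (slp_a h m.toNm hu hN hC).2
    have hK : 0 < d.Kf q z := K_pos h _
    have e1 : d.N q z ^ 2 ≤ 2 * q.aC * (d.E q z * d.Kf q z) := h3
    have e2 : 2 * q.aC * (d.E q z * d.Kf q z) ≤ a ^ 2 * q.cK * (d.E q z * d.Kf q z) :=
      mul_le_mul_of_nonneg_right m.aK (by positivity)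
    have e3 : a ^ 2 * (d.E q z * (q.cK * d.Kf q z)) ≤ a ^ 2 * (d.E q z * d.m q z) := by gcongr
    linarith
  · have e1 : d.N q z ^ 2 * d.N q z ^ (3 / 5 : ℝ) = d.N q z ^ (13 / 5 : ℝ) := by
      rw [← Real.rpow_natCast, ← Real.rpow_add hN0]
      norm_num
    have e2 : q.M₀ ^ (3 / 5 : ℝ) ≤ d.N q z ^ (3 / 5 : ℝ) :=
      Real.rpow_le_rpow (by linarith) hMN (by norm_num)
    have e3 : d.N q z ^ 2 * q.M₀ ^ (3 / 5 : ℝ) ≤ d.E q z :=
      le_trans (mul_le_mul_of_nonneg_left e2 (sq_nonneg _)) (e1.le.trans hB)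
    have e4 : 1 / 2 ≤ d.m q z := by
      have := m_big h m hu hN (Or.inr ⟨hB, h2⟩)
      linarith [m.X0]
    have e5 : 2 * d.N q z ^ 2 ≤ a ^ 2 * q.M₀ ^ (3 / 5 : ℝ) * d.N q z ^ 2 :=
      mul_le_mul_of_nonneg_right m.aM (sq_nonneg _)
    have e6 : a ^ 2 * (d.N q z ^ 2 * q.M₀ ^ (3 / 5 : ℝ)) ≤ a ^ 2 * d.E q z :=
      mul_le_mul_of_nonneg_left e3 (sq_nonneg _)
    have e7 : a ^ 2 * (d.E q z * (1 / 2)) ≤ a ^ 2 * (d.E q z * d.m q z) := by gcongr
    linarith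

/-- **The points of zone II.** -/
theorem al (hz : Z2 q d z) : Al a X q d z := by
  have hM := m.M1
  have hMN : q.M₀ ≤ d.N q z := N_ge h _
  have hN0 : 0 < d.N q z := N_pos h m.toNm _
  have hE : 0 < d.E q z := Real.exp_pos _
  have hP := (m.nr.sm d h).cp
  have hρ := (m.nr.rb d h z).1
  obtain ⟨k, hk, hk0, hch⟩ : ∃ k : Zo, Near k ∧ k ≠ .z0 ∧ d.ch q k z ≠ 0 := by
    rcases hz with h1 | h1
    · exact ⟨.z2a, Or.inr (Or.inr (Or.inl rfl)), by decide, h1⟩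
    · exact ⟨.z2b, Or.inr (Or.inr (Or.inr (Or.inr rfl))), by decide, h1⟩
  have hts : z ∈ tsupport (d.ch q k) := subset_tsupport _ (Function.mem_support.2 hch)
  have hta := m.nr.u_le h hk hts
  have hr4 : d.r2 z ≤ 4 * q.c₀ ^ 2 := sd_r hch hk hP
  have hNa : d.N q z ≤ q.aC * d.E q z := sd_e0 hch hk hk0 hP m.a0 hN0
  have hab : Z2ab q d z := by
    rcases hz with h1 | h1
    · exact Or.inl ⟨sd_C h1 (Or.inr rfl) hP hN0, sd_z2a h1 hP⟩
    · exact Or.inr ⟨sd_B h1 (Or.inr rfl) hP hN0, sd_z2b h1 hP hρ⟩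
  have hu0 : 0 ≤ d.u q z := by
    have h1 : 1 ≤ d.E q z := by
      have := m.a1
      have := m.a0
      nlinarith
    by_contra hc
    have h2 : d.E q z < 1 := by
      unfold Pk.E
      rw [← Real.exp_zero]
      exact Real.exp_lt_exp.2 (not_le.1 hc)
    linarith
  have hm0 := pos_m h m hab
  have hr0 : 0 < d.r2 z := by
    by_contra hc
    have : d.m q z ≤ 0 := mul_nonpos_of_nonneg_of_nonpos hE.le (not_lt.1 hc)
    linarith
  have htb : d.u q z ≤ d.utb q := by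
    unfold Pk.uta at hta
    unfold Pk.utb
    have := m.R0
    linarith
  exact ⟨m.nr.Cds h hk hts, loc h m.toLm hr4 (by linarith) htb, hr4, hr0, hta, hNa, hu0,
    N_small h m hta hNa hab, m_big h m hta hNa hab, hab⟩

omit h m in
/-- The numbers exist. -/
theorem evZn (hn : 1 ≤ n) {a : ℝ} (ha : 0 < a) (X : Cst → ℝ) (hX : NB_M₀ X) (X0 : ∀ q, 1 ≤ X q) :
    EvC fun q => Zn n a (X q) q := by
  have hXR : NB_R X := fun q => by
    have h1 := hX q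
    have h2 := hX q.b_R
    have e : q.b_R.b_M₀ = q.b_M₀ := rfl
    rw [← h2, e, h1]
  have ak : EvC fun q => 0 < q.cK → 2 * q.aC ≤ a ^ 2 * q.cK := by
    refine EvC.at_aC (fun q t => 0 < q.cK → 2 * t ≤ a ^ 2 * q.cK) fun q => ?_
    by_cases hk : 0 < q.cK
    · filter_upwards [sml_le (a := a ^ 2 * q.cK / 2) (by positivity)] with t ht _
      linarith
    · exact Eventually.of_forall fun _ hk' => absurd hk' hk
  have am : EvC fun q => 2 / a ^ 2 ≤ q.M₀ ^ (3 / 5 : ℝ) :=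
    ev_rpow (by norm_num) (fun _ => 2 / a ^ 2) fun _ => rfl
  have x1 : EvC fun q => X q / q.cK ≤ q.M₀ ^ (9 / 10 : ℝ) :=
    ev_rpow (by norm_num) (fun q => X q / q.cK) fun q => by
      show X q.b_M₀ / q.cK = X q / q.cK
      rw [hX q]
  have x2 : EvC fun q => 2 * X q ≤ q.M₀ ^ (169 / 250 : ℝ) :=
    ev_rpow (by norm_num) (fun q => 2 * X q) fun q => by
      show 2 * X q.b_M₀ = 2 * X q
      rw [hX q]
  have x3 : EvC fun q => 2 * X q * q.σ ≤ q.R := ev_R (fun q => 2 * X q * q.σ) fun q => by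
    show 2 * X q.b_R * q.σ = 2 * X q * q.σ
    rw [hXR q]
  have x4 : EvC fun q => 2 * Nb q * q.σ ≤ q.R := ev_R (fun q => 2 * Nb q * q.σ) fun q => rfl
  have b : EvC fun q => Nb q ^ (133 / 50 : ℝ) < Real.exp (11 / 10 * q.R) := by
    have ht : Tendsto (fun t : ℝ => Real.exp (11 / 10 * t)) atTop atTop :=
      Real.tendsto_exp_atTop.comp (tendsto_id.const_mul_atTop (by norm_num))
    exact EvC.at_R (fun q t => Nb q ^ (133 / 50 : ℝ) < Real.exp (11 / 10 * t)) fun q =>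
      ht.eventually_gt_atTop _
  have c2 : EvC fun q => 2 * q.c₀ ≤ a :=
    EvC.at_c₀ (fun _ t => 2 * t ≤ a) fun _ => (sml_le (a := a / 2) (by positivity)).mono fun t ht => by
      linarith
  have m4 : EvC fun q => 400 ≤ Real.log q.M₀ :=
    EvC.at_M₀ (fun _ t => 400 ≤ Real.log t) fun _ => Real.tendsto_log_atTop.eventually_ge_atTop _
  have m5 : EvC fun q => 10 * (n : ℝ) ≤ Real.log q.M₀ :=
    EvC.at_M₀ (fun _ t => 10 * (n : ℝ) ≤ Real.log t) fun _ =>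
      Real.tendsto_log_atTop.eventually_ge_atTop _
  refine (((evLm hn).and (H932.EP.evNr n)).and ((EvC.pos.and ak).and ((am.and x1).and
    ((x2.and x3).and (x4.and (b.and (c2.and (m4.and m5)))))))).mono ?_
  rintro q ⟨⟨lm, nr⟩, ⟨⟨⟨-, -, -, p4, -⟩, -⟩, ak⟩, ⟨am, x1⟩, ⟨x2, x3⟩, x4, b, c2, m4, m5⟩
  have hR : 0 < q.R := by linarith [lm.R1]
  have hRB : q.R ≤ q.CB * q.R := le_mul_of_one_le_left hR.le nr.CB1
  refine { toLm := lm, nr := nr, ap := ha, aK := ak p4, aM := ?_, k0 := p4, X0 := X0 q,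
           X1 := ?_, X2 := x2, X3 := x3.trans hRB, X4 := x4.trans hRB, bg := b, c2 := c2, M4 := m4, M5 := m5 }
  · rw [div_le_iff₀ (by positivity)] at am
    linarith
  · rw [div_le_iff₀ p4] at x1
    linarith

end Vale.Agent.P088.R2.H606.EP
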