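import Vale.Agent.P088.R2.H31.EP.Pack

/-!
# P088, stage 3: the correction `μc`, cut off at the levels `l₀ + R / 2 .. l₀ + R`
-/

open Set Filter
open scoped ContDiff Topology

noncomputable section

namespace Vale.Agent.P088.R2.H606.EP

open Vale.Agent.P088.R2.H31.EP

/-- The derivatives of the smooth transition are bounded. -/
theorem st_bd : ∃ C : ℝ, 1 ≤ C ∧ (∀ t, |deriv Real.smoothTransition t| ≤ C) ∧
    ∀ t, |deriv (deriv Real.smoothTransition) t| ≤ C := by
  have s0 : ContDiff ℝ ∞ Real.smoothTransition := Real.smoothTransition.contDiff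
  have s1 : ContDiff ℝ ∞ (deriv Real.smoothTransition) := (contDiff_infty_iff_deriv.1 s0).2
  have s2 : ContDiff ℝ ∞ (deriv (deriv Real.smoothTransition)) := (contDiff_infty_iff_deriv.1 s1).2
  obtain ⟨C1, h1⟩ := isCompact_Icc.exists_bound_of_continuousOn (s := Icc (-1 : ℝ) 2)
    (f := deriv Real.smoothTransition) s1.continuous.continuousOn
  obtain ⟨C2, h2⟩ := isCompact_Icc.exists_bound_of_continuousOn (s := Icc (-1 : ℝ) 2)
    (f := deriv (deriv Real.smoothTransition)) s2.continuous.continuousOn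
  have lo : ∀ t < (0 : ℝ), deriv Real.smoothTransition t = 0 := by
    intro t ht
    have h : Real.smoothTransition =ᶠ[𝓝 t] fun _ => 0 := by
      filter_upwards [gt_mem_nhds ht] with y hy using
        Real.smoothTransition.zero_of_nonpos (le_of_lt hy)
    rw [h.deriv_eq, deriv_const]
  have hi : ∀ t > (1 : ℝ), deriv Real.smoothTransition t = 0 := by
    intro t ht
    have h : Real.smoothTransition =ᶠ[𝓝 t] fun _ => 1 := by
      filter_upwards [lt_mem_nhds ht] with y hy using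
        Real.smoothTransition.one_of_one_le (le_of_lt hy)
    rw [h.deriv_eq, deriv_const]
  have lo2 : ∀ t < (0 : ℝ), deriv (deriv Real.smoothTransition) t = 0 := by
    intro t ht
    have h : deriv Real.smoothTransition =ᶠ[𝓝 t] fun _ => 0 := by
      filter_upwards [gt_mem_nhds ht] with y hy using lo y hy
    rw [h.deriv_eq, deriv_const]
  have hi2 : ∀ t > (1 : ℝ), deriv (deriv Real.smoothTransition) t = 0 := by
    intro t ht
    have h : deriv Real.smoothTransition =ᶠ[𝓝 t] fun _ => 0 := by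
      filter_upwards [lt_mem_nhds ht] with y hy using hi y hy
    rw [h.deriv_eq, deriv_const]
  refine ⟨|C1| + |C2| + 1, by linarith [abs_nonneg C1, abs_nonneg C2], fun t => ?_, fun t => ?_⟩
  · by_cases a1 : t < -1
    · rw [lo t (by linarith), abs_zero]; positivity
    by_cases a2 : 2 < t
    · rw [hi t (by linarith), abs_zero]; positivity
    have := h1 t ⟨not_lt.1 a1, not_lt.1 a2⟩
    rw [Real.norm_eq_abs] at this
    linarith [le_abs_self C1, abs_nonneg C2]
  · by_cases a1 : t < -1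
    · rw [lo2 t (by linarith), abs_zero]; positivity
    by_cases a2 : 2 < t
    · rw [hi2 t (by linarith), abs_zero]; positivity
    have := h2 t ⟨not_lt.1 a1, not_lt.1 a2⟩
    rw [Real.norm_eq_abs] at this
    linarith [le_abs_self C2, abs_nonneg C1]

/-- The bound of the derivatives of the smooth transition. -/
def cSt : ℝ := st_bd.choose

theorem cSt_spec : 1 ≤ cSt ∧ (∀ t, |deriv Real.smoothTransition t| ≤ cSt) ∧
    ∀ t, |deriv (deriv Real.smoothTransition) t| ≤ cSt := st_bd.choose_spec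

section cut

variable {μ : ℝ → ℝ} {l₀ R : ℝ}

/-- The cut-off. -/
def ct (l₀ R s : ℝ) : ℝ := 1 - Real.smoothTransition (2 * ((s - l₀) / R) - 1)

theorem ct_01 (l₀ R s : ℝ) : 0 ≤ ct l₀ R s ∧ ct l₀ R s ≤ 1 := by
  unfold ct
  have h1 := Real.smoothTransition.nonneg (2 * ((s - l₀) / R) - 1)
  have h2 := Real.smoothTransition.le_one (2 * ((s - l₀) / R) - 1)
  constructor <;> linarith

theorem ct_one (hR : 0 < R) {s : ℝ} (h : s ≤ l₀ + R / 2) : ct l₀ R s = 1 := by
  unfold ct
  rw [Real.smoothTransition.zero_of_nonpos, sub_zero]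
  have : (s - l₀) / R ≤ 1 / 2 := by rw [div_le_iff₀ hR]; linarith
  linarith

theorem ct_zero (hR : 0 < R) {s : ℝ} (h : l₀ + R ≤ s) : ct l₀ R s = 0 := by
  unfold ct
  rw [Real.smoothTransition.one_of_one_le, sub_self]
  have : 1 ≤ (s - l₀) / R := by rw [le_div_iff₀ hR]; linarith
  linarith

theorem ct_arg (s : ℝ) : HasDerivAt (fun s => 2 * ((s - l₀) / R) - 1) (2 / R) s := by
  have := ((((hasDerivAt_id s).sub_const l₀).div_const R).const_mul 2).sub_const 1
  refine this.congr_deriv ?_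
  ring

theorem ct_d1 (s : ℝ) : HasDerivAt (ct l₀ R)
    (-(deriv Real.smoothTransition (2 * ((s - l₀) / R) - 1) * (2 / R))) s := by
  have s0 : ContDiff ℝ ∞ Real.smoothTransition := Real.smoothTransition.contDiff
  have h := ((s0.differentiable (by simp)) (2 * ((s - l₀) / R) - 1)).hasDerivAt.comp s (ct_arg s)
  exact (h.const_sub 1)

theorem ct_d2 (s : ℝ) : HasDerivAt (deriv (ct l₀ R))
    (-(deriv (deriv Real.smoothTransition) (2 * ((s - l₀) / R) - 1) * (2 / R) ^ 2)) s := by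
  have s0 : ContDiff ℝ ∞ Real.smoothTransition := Real.smoothTransition.contDiff
  have s1 : ContDiff ℝ ∞ (deriv Real.smoothTransition) := (contDiff_infty_iff_deriv.1 s0).2
  have e : deriv (ct l₀ R) = fun s =>
      -(deriv Real.smoothTransition (2 * ((s - l₀) / R) - 1) * (2 / R)) :=
    funext fun s => (ct_d1 s).deriv
  rw [e]
  have h := ((s1.differentiable (by simp)) (2 * ((s - l₀) / R) - 1)).hasDerivAt.comp s (ct_arg s)
  refine (h.mul_const (2 / R)).fun_neg.congr_deriv ?_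
  ring

theorem ct_sm : ContDiff ℝ ∞ (ct l₀ R) := by
  have s0 : ContDiff ℝ ∞ Real.smoothTransition := Real.smoothTransition.contDiff
  unfold ct
  exact contDiff_const.sub (s0.comp
    ((contDiff_const.mul ((contDiff_id.sub contDiff_const).div_const R)).sub contDiff_const))

/-- The derivatives of the product. -/
theorem muc_d (hμ : ContDiff ℝ ∞ μ) (s : ℝ) :
    HasDerivAt (fun s => μ s * ct l₀ R s) (deriv μ s * ct l₀ R s + μ s * deriv (ct l₀ R) s) s :=
  ((hμ.differentiable (by simp)) s).hasDerivAt.mul ((ct_sm.differentiable (by simp)) s).hasDerivAt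

theorem muc_dd (hμ : ContDiff ℝ ∞ μ) (s : ℝ) :
    HasDerivAt (deriv fun s => μ s * ct l₀ R s) (deriv (deriv μ) s * ct l₀ R s +
      2 * (deriv μ s * deriv (ct l₀ R) s) + μ s * deriv (deriv (ct l₀ R)) s) s := by
  have e : (deriv fun s => μ s * ct l₀ R s) = fun s =>
      deriv μ s * ct l₀ R s + μ s * deriv (ct l₀ R) s := funext fun s => (muc_d hμ s).deriv
  rw [e]
  have a1 := ((hμ.differentiable (by simp)) s).hasDerivAt
  have a2 := ((((contDiff_infty_iff_deriv.1 hμ).2).differentiable (by simp)) s).hasDerivAt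
  have b1 := ((ct_sm (l₀ := l₀) (R := R)).differentiable (by simp) s).hasDerivAt
  have b2 := ((((contDiff_infty_iff_deriv.1 (ct_sm (l₀ := l₀) (R := R))).2).differentiable
    (by simp)) s).hasDerivAt
  refine ((a2.mul b1).add (a1.mul b2)).congr_deriv ?_
  ring

theorem muc_b1 (hμ : ContDiff ℝ ∞ μ) (hR : 0 < R) {a b s : ℝ} (h0 : |μ s| ≤ a) (h1 : |deriv μ s| ≤ b) :
    |deriv (fun s => μ s * ct l₀ R s) s| ≤ b + a * (2 * cSt / R) := by
  obtain ⟨c1, c2, -⟩ := cSt_spec
  have k := ct_01 l₀ R s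
  rw [(muc_d hμ s).deriv, (ct_d1 s).deriv]
  refine (abs_add_le _ _).trans (add_le_add ?_ ?_)
  · rw [abs_mul, abs_of_nonneg k.1]
    exact (mul_le_of_le_one_right (abs_nonneg _) k.2).trans h1
  · rw [abs_mul, abs_neg, abs_mul, abs_of_pos (by positivity : 0 < 2 / R)]
    refine mul_le_mul h0 ?_ (by positivity) ((abs_nonneg _).trans h0)
    calc _ ≤ cSt * (2 / R) := mul_le_mul_of_nonneg_right (c2 _) (by positivity)
      _ = _ := by ring

theorem muc_b2 (hμ : ContDiff ℝ ∞ μ) (hR : 0 < R) {a b c s : ℝ} (h0 : |μ s| ≤ a)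
    (h1 : |deriv μ s| ≤ b) (h2 : |deriv (deriv μ) s| ≤ c) :
    |deriv (deriv fun s => μ s * ct l₀ R s) s| ≤ c + 2 * (b * (2 * cSt / R)) +
      a * (4 * cSt / R ^ 2) := by
  obtain ⟨c1, c2, c3⟩ := cSt_spec
  have k := ct_01 l₀ R s
  rw [(muc_dd hμ s).deriv, (ct_d2 s).deriv, (ct_d1 s).deriv]
  refine (abs_add_le _ _).trans (add_le_add ((abs_add_le _ _).trans (add_le_add ?_ ?_)) ?_)
  · rw [abs_mul, abs_of_nonneg k.1]
    exact (mul_le_of_le_one_right (abs_nonneg _) k.2).trans h2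
  · rw [abs_mul, abs_mul, abs_neg, abs_mul, abs_of_pos (by positivity : 0 < 2 / R),
      abs_of_pos (by norm_num : (0 : ℝ) < 2)]
    refine mul_le_mul_of_nonneg_left (mul_le_mul h1 ?_ (by positivity)
      ((abs_nonneg _).trans h1)) (by norm_num)
    calc _ ≤ cSt * (2 / R) := mul_le_mul_of_nonneg_right (c2 _) (by positivity)
      _ = _ := by ring
  · rw [abs_mul, abs_neg, abs_mul, abs_of_pos (by positivity : 0 < (2 / R) ^ 2)]
    refine mul_le_mul h0 ?_ (by positivity) ((abs_nonneg _).trans h0)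
    calc _ ≤ cSt * (2 / R) ^ 2 := mul_le_mul_of_nonneg_right (c3 _) (by positivity)
      _ = _ := by ring

/-- Lower bound of the second derivative of the cut-off correction. -/
theorem muc_lo2 (hμ : ContDiff ℝ ∞ μ) (hR : 0 < R) {a b s : ℝ} (h0 : |μ s| ≤ a)
    (h1 : |deriv μ s| ≤ b) : deriv (deriv μ) s * ct l₀ R s - (2 * (b * (2 * cSt / R)) +
      a * (4 * cSt / R ^ 2)) ≤ deriv (deriv fun s => μ s * ct l₀ R s) s := by
  obtain ⟨c1, c2, c3⟩ := cSt_spec
  have k := ct_01 l₀ R s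
  rw [(muc_dd hμ s).deriv, (ct_d2 s).deriv, (ct_d1 s).deriv]
  have a1 : |2 * (deriv μ s * -(deriv Real.smoothTransition (2 * ((s - l₀) / R) - 1) * (2 / R)))| ≤
      2 * (b * (2 * cSt / R)) := by
    rw [abs_mul, abs_mul, abs_neg, abs_mul, abs_of_pos (by positivity : 0 < 2 / R),
      abs_of_pos (by norm_num : (0 : ℝ) < 2)]
    refine mul_le_mul_of_nonneg_left (mul_le_mul h1 ?_ (by positivity)
      ((abs_nonneg _).trans h1)) (by norm_num)
    calc _ ≤ cSt * (2 / R) := mul_le_mul_of_nonneg_right (c2 _) (by positivity)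
      _ = _ := by ring
  have a2 : |μ s * -(deriv (deriv Real.smoothTransition) (2 * ((s - l₀) / R) - 1) *
      (2 / R) ^ 2)| ≤ a * (4 * cSt / R ^ 2) := by
    rw [abs_mul, abs_neg, abs_mul, abs_of_pos (by positivity : 0 < (2 / R) ^ 2)]
    refine mul_le_mul h0 ?_ (by positivity) ((abs_nonneg _).trans h0)
    calc _ ≤ cSt * (2 / R) ^ 2 := mul_le_mul_of_nonneg_right (c3 _) (by positivity)
      _ = _ := by ring
  have := (abs_le.1 a1).1
  have := (abs_le.1 a2).1
  linarith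

end cut

variable {n : ℕ} {q : Cst} {d : Pk n}

theorem μc_eq (q : Cst) (d : Pk n) : d.μc q = fun s => d.μ s * ct (d.l₀ q) q.R s := rfl

/-- The numbers of `μ`. -/
theorem mu_b (h : PkOk q d) (s : ℝ) : |d.μ s| ≤ 1 / 8 ∧ |deriv d.μ s| ≤ 1 / 8 ∧
    |deriv (deriv d.μ) s| ≤ |muC 1| / 8 := by
  refine ⟨h.ph.μb s, ?_, ?_⟩
  · have h1 := h.ph.isμ.d1 s
    have h2 := h.ph.isμ.d2 s
    have h3 := h.ph.b0
    rw [abs_le]
    constructor <;> linarith
  · have h1 := h.ph.isμ.bj 1 s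
    have h3 := h.ph.b0
    have h4 : 0 ≤ H313.Mu.b0 1 q.M₀ := by
      have := h.ph.isμ.d1 s
      have := h.ph.isμ.d2 s
      linarith
    have e : iteratedDeriv (1 + 1) d.μ s = deriv (deriv d.μ) s := by
      rw [iteratedDeriv_succ, iteratedDeriv_one]
    rw [e] at h1
    refine h1.trans ?_
    calc muC 1 * H313.Mu.b0 1 q.M₀ ≤ |muC 1| * (1 / 8) :=
          mul_le_mul (le_abs_self _) h3 h4 (abs_nonneg _)
      _ = _ := by ring

/-- The numbers of `μc`. -/
theorem muc_b (h : PkOk q d) (hR : 8 * cSt ≤ q.R) (s : ℝ) : ContDiff ℝ ∞ (d.μc q) ∧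
    |d.μc q s| ≤ 1 / 8 ∧ |deriv (d.μc q) s| ≤ 1 / 4 ∧
    |deriv (deriv (d.μc q)) s| ≤ |muC 1| / 8 + 1 := by
  obtain ⟨c1, c2, c3⟩ := cSt_spec
  have hR0 : 0 < q.R := by linarith
  have hR1 : 1 ≤ q.R := by linarith
  obtain ⟨b0, b1, b2⟩ := mu_b h s
  have k := ct_01 (d.l₀ q) q.R s
  have e1 : 2 * cSt / q.R ≤ 1 / 4 := by rw [div_le_iff₀ hR0]; linarith
  have e2 : 4 * cSt / q.R ^ 2 ≤ 1 / 2 := by
    rw [div_le_iff₀ (by positivity)]
    nlinarith
  rw [μc_eq]
  refine ⟨h.ph.isμ.sm.mul ct_sm, ?_, ?_, ?_⟩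
  · show |d.μ s * ct (d.l₀ q) q.R s| ≤ 1 / 8
    rw [abs_mul, abs_of_nonneg k.1]
    exact (mul_le_of_le_one_right (abs_nonneg _) k.2).trans b0
  · refine (muc_b1 h.ph.isμ.sm hR0 b0 b1).trans ?_
    linarith
  · refine (muc_b2 h.ph.isμ.sm hR0 b0 b1 b2).trans ?_
    linarith

end Vale.Agent.P088.R2.H606.EP
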