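import Vale.Agent.P088.R2.H606.EP.Lvl
import Vale.Agent.P088.R2.H475.INF.LevR

/-!
# P088, stage 3: the global level function near a point of high level
-/

open Set Filter
open scoped ContDiff Topology Matrix

noncomputable section

namespace Vale.Agent.P088.R2.H606.EP

open Vale.Agent.P088.LR Vale.Agent.P088.HY Vale.Agent.P088.R2.H464.Cu Vale.Agent.P088.R2.H31.EP
open Vale.Agent.P088.R2.H932.EP (Lb)
open Vale.Agent.P088.R2.H961.GW (df_of)
open Vale.Agent.P088.R2.H475

variable {n : ℕ} {O : Set (V n)} {σ R kap Gs : ℝ} {x y p : V n}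

/-- The global level is `lv` near a point of level at least `l₀ - R / 2`. -/
theorem levG_ball (hn : 1 ≤ n) (h0 : 0 < σ) (h1 : σ ≤ 1 / 5000) (hR : (n : ℝ) ≤ R)
    (hp : lam0 R kap Gs - R / 2 ≤ levG n σ R kap Gs p) :
    EqOn (levG n σ R kap Gs) (lv n σ R kap Gs) (Metric.ball p 1) := by
  intro x hx
  have hn1 : (1 : ℝ) ≤ n := by exact_mod_cast hn
  have hR0 : 0 < R := by linarith
  have ht : th1 σ ≤ HY.sq (wR n σ R p) := by
    refine th1_le_of_gg h0 h1 ?_
    rw [levG_eq] at hp
    by_contra hc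
    have := mul_lt_mul_of_pos_left (not_le.1 hc) hR0
    linarith
  have h2 := levG_lit (R := R) (kap := kap) (Gs := Gs) h0 h1 ht
  have h3 : 1 - σ ≤ HY.sq (wR n σ R p) := by
    rw [h2] at hp
    have h4 : -(R / 2) ≤ R / (2 * σ) * (HY.sq (wR n σ R p) - 1) := by linarith
    have h5 : -(R / 2) = R / (2 * σ) * (-σ) := by field_simp
    rw [h5] at h4
    have := le_of_mul_le_mul_left h4 (by positivity)
    linarith
  have h4 : √(HY.sq (p - x)) ≤ R := by
    have h5 : HY.sq (p - x) ≤ n * 1 := by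
      unfold HY.sq
      calc ∑ j, (p - x) j ^ 2 ≤ ∑ _j : Fin n, (1 : ℝ) := Finset.sum_le_sum fun j _ => by
            have h6 := cmp_le (p - x) j
            rw [Metric.mem_ball, dist_eq_norm, norm_sub_rev] at hx
            rw [← sq_abs]
            have := abs_nonneg ((p - x) j)
            nlinarith
        _ = _ := by simp
    have h6 : HY.sq (p - x) ≤ R ^ 2 := by nlinarith
    exact Real.sqrt_le_iff.2 ⟨hR0.le, h6⟩
  have h5 := en_wR_le (n := n) h0 hR0 p x
  have h6 : σ / R * √(HY.sq (p - x)) ≤ σ := by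
    calc σ / R * √(HY.sq (p - x)) ≤ σ / R * R := mul_le_mul_of_nonneg_left h4 (by positivity)
      _ = σ := by field_simp
  have h7 : 1 - σ ≤ √(HY.sq (wR n σ R p)) := by
    refine Real.le_sqrt_of_sq_le ?_
    nlinarith
  have h8 : 1 - 2 * σ ≤ √(HY.sq (wR n σ R x)) := by linarith
  have h9 : (1 - 2 * σ) ^ 2 ≤ HY.sq (wR n σ R x) := by
    have h10 : 0 ≤ HY.sq (wR n σ R x) := by
      unfold HY.sq
      exact Finset.sum_nonneg fun _ _ => sq_nonneg _
    rw [← Real.sq_sqrt h10]
    exact pow_le_pow_left₀ (by linarith) h8 2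
  refine levG_eq_lv hn h0 h1 ?_
  unfold th1
  nlinarith

end Vale.Agent.P088.R2.H606.EP
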