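import Vale.Agent.P088.R2.H31.EP.Dat
import Vale.Agent.P088.R2.H932.EP.CutI

/-!
# P088, stage 3: the level function near a point

`∇ lv = w`, `D² lv = σ / R`, `|∇ lv|² = 1 + 2 σ gy = 1 + 2 σ (lv - l₀) / R`.
-/

open Set Filter
open scoped ContDiff Topology Matrix

noncomputable section

namespace Vale.Agent.P088.R2.H606.EP

open Vale.Agent.P088.LR Vale.Agent.P088.HY Vale.Agent.P088.R2.H464.Cu Vale.Agent.P088.R2.H31.EP
open Vale.Agent.P088.R2.H932.EP (Lb)
open Vale.Agent.P088.R2.H961.GW (df_of)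

variable {n : ℕ} {O : Set (V n)} {σ R kap Gs : ℝ} {x y p : V n}

/-- The gradient of the level function. -/
def wv (n : ℕ) (σ R : ℝ) (k : Fin n) (x : V n) : ℝ := T3.e0 n k + σ * (R⁻¹ * x k - T3.e0 n k)

theorem lv_fd (hR : R ≠ 0) (x : V n) : HasFDerivAt (lv n σ R kap Gs)
    (∑ k, wv n σ R k x • (ContinuousLinearMap.proj k : V n →L[ℝ] ℝ)) x := by
  have hx : ∀ i, HasFDerivAt (fun x : V n => x i) (ContinuousLinearMap.proj i : V n →L[ℝ] ℝ) x :=
    fun i => (ContinuousLinearMap.proj (R := ℝ) (φ := fun _ : Fin n => ℝ) i).hasFDerivAt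
  have h1 : HasFDerivAt (fun x : V n => ∑ i, (R⁻¹ * x i) * T3.e0 n i)
      (∑ i, (R⁻¹ * T3.e0 n i) • (ContinuousLinearMap.proj i : V n →L[ℝ] ℝ)) x := by
    refine HasFDerivAt.fun_sum fun i _ => ?_
    refine (((hx i).const_mul R⁻¹).mul_const (T3.e0 n i)).congr_fderiv ?_
    ext v; simp; ring
  have h2 : HasFDerivAt (fun x : V n => ∑ i, (R⁻¹ * x i - T3.e0 n i) ^ 2)
      (∑ i, (2 * (R⁻¹ * x i - T3.e0 n i) * R⁻¹) • (ContinuousLinearMap.proj i : V n →L[ℝ] ℝ)) x := by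
    refine HasFDerivAt.fun_sum fun i _ => ?_
    refine ((((hx i).const_mul R⁻¹).sub_const (T3.e0 n i)).pow 2).congr_fderiv ?_
    ext v; simp; ring
  have h3 := ((((h1.sub_const 1).add (h2.const_mul (σ / 2))).sub_const Gs).const_mul R).const_add
    (Real.log (kap / R))
  have e : lv n σ R kap Gs = fun x => Real.log (kap / R) +
      R * ((∑ i, (R⁻¹ * x i) * T3.e0 n i) - 1 + σ / 2 * (∑ i, (R⁻¹ * x i - T3.e0 n i) ^ 2) - Gs) := by
    funext x
    unfold lv T4.gy HY.sq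
    simp only [Pi.smul_apply, Pi.sub_apply, smul_eq_mul]
  rw [e]
  refine h3.congr_fderiv ?_
  ext v
  simp only [_root_.smul_apply, _root_.add_apply, _root_.sum_apply,
    ContinuousLinearMap.proj_apply, smul_eq_mul, Finset.mul_sum, ← Finset.sum_add_distrib]
  refine Finset.sum_congr rfl fun i _ => ?_
  unfold wv
  field_simp

theorem lv_pd (hR : R ≠ 0) (k : Fin n) : pd k (lv n σ R kap Gs) = wv n σ R k := by
  funext x
  show fderiv ℝ _ x (Pi.single k 1) = _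
  rw [(lv_fd hR x).fderiv]
  simp only [_root_.sum_apply, _root_.smul_apply, ContinuousLinearMap.proj_apply,
    smul_eq_mul]
  simp [Pi.single_apply]

theorem wv_pd (j k : Fin n) (x : V n) : pd j (wv n σ R k) x = if j = k then σ * R⁻¹ else 0 := by
  have h : HasFDerivAt (wv n σ R k)
      ((σ * R⁻¹) • (ContinuousLinearMap.proj k : V n →L[ℝ] ℝ)) x := by
    have hx : HasFDerivAt (fun x : V n => x k) (ContinuousLinearMap.proj k : V n →L[ℝ] ℝ) x :=
      (ContinuousLinearMap.proj (R := ℝ) (φ := fun _ : Fin n => ℝ) k).hasFDerivAt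
    refine ((((hx.const_mul R⁻¹).sub_const (T3.e0 n k)).const_mul σ).const_add
      (T3.e0 n k)).congr_fderiv ?_
    ext v; simp; ring
  show fderiv ℝ _ x (Pi.single j 1) = _
  rw [h.fderiv]
  simp [Pi.single_apply, eq_comm]

theorem lv_pd2 (hR : R ≠ 0) (j k : Fin n) (x : V n) :
    pd j (pd k (lv n σ R kap Gs)) x = if j = k then σ * R⁻¹ else 0 := by
  rw [lv_pd hR, wv_pd]

theorem e0_sq (hn : 0 < n) : ∑ i, T3.e0 n i ^ 2 = 1 := by
  rw [Finset.sum_eq_single (⟨0, hn⟩ : Fin n)]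
  · simp [T3.e0]
  · intro j _ hj
    have : j.val ≠ 0 := fun h => hj (Fin.ext h)
    simp [T3.e0, this]
  · intro h; exact absurd (Finset.mem_univ _) h

/-- `|∇ lv|² = 1 + 2 σ gy`. -/
theorem wv_sq (hn : 0 < n) (x : V n) :
    ∑ k, wv n σ R k x ^ 2 = 1 + 2 * σ * T4.gy n σ (R⁻¹ • x) := by
  have h := e0_sq hn
  have e : ∀ k, wv n σ R k x ^ 2 = T3.e0 n k ^ 2 + 2 * σ * (R⁻¹ * x k * T3.e0 n k) -
      2 * σ * T3.e0 n k ^ 2 + σ ^ 2 * (R⁻¹ * x k - T3.e0 n k) ^ 2 := by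
    intro k; unfold wv; ring
  simp only [e]
  rw [Finset.sum_add_distrib, Finset.sum_sub_distrib, Finset.sum_add_distrib, ← Finset.mul_sum,
    ← Finset.mul_sum, ← Finset.mul_sum, h]
  unfold T4.gy HY.sq
  simp only [Pi.smul_apply, Pi.sub_apply, smul_eq_mul]
  ring

/-- The level in terms of `gy`. -/
theorem gy_lv (hR : R ≠ 0) (x : V n) : T4.gy n σ (R⁻¹ • x) =
    (lv n σ R kap Gs x - (Real.log (kap / R) - R * Gs)) / R := by
  unfold lv
  field_simp
  ring

theorem wv_sub (k : Fin n) (x y : V n) : wv n σ R k x - wv n σ R k y = σ * R⁻¹ * (x k - y k) := by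
  unfold wv; ring

/-- The level function is smooth. -/
theorem lv_sm : ContDiff ℝ ∞ (lv n σ R kap Gs) := by
  have e : lv n σ R kap Gs = fun x => Real.log (kap / R) +
      R * ((∑ i, (R⁻¹ * x i) * T3.e0 n i) - 1 + σ / 2 * (∑ i, (R⁻¹ * x i - T3.e0 n i) ^ 2) - Gs) := by
    funext x
    unfold lv T4.gy HY.sq
    simp only [Pi.smul_apply, Pi.sub_apply, smul_eq_mul]
  rw [e]
  have hx : ∀ i, ContDiff ℝ ∞ fun x : V n => x i := fun i => contDiff_apply ℝ ℝ i
  exact contDiff_const.add (contDiff_const.mul ((((ContDiff.sum fun i _ =>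
    (contDiff_const.mul (hx i)).mul contDiff_const).sub contDiff_const).add
    (contDiff_const.mul (ContDiff.sum fun i _ =>
      ((contDiff_const.mul (hx i)).sub contDiff_const).pow 2))).sub contDiff_const))

theorem abs_wv_le (hn : 0 < n) (hσ : 0 ≤ σ) {G : ℝ} (hp : T4.gy n σ (R⁻¹ • p) ≤ G)
    (hG : 2 * σ * G ≤ 1) (k : Fin n) : |wv n σ R k p| ≤ 3 / 2 := by
  have h1 := wv_sq (σ := σ) (R := R) hn p
  have h2 : wv n σ R k p ^ 2 ≤ ∑ k, wv n σ R k p ^ 2 :=
    Finset.single_le_sum (f := fun k => wv n σ R k p ^ 2) (fun i _ => sq_nonneg _)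
      (Finset.mem_univ k)
  have h3 : 2 * σ * T4.gy n σ (R⁻¹ • p) ≤ 2 * σ * G := mul_le_mul_of_nonneg_left hp (by linarith)
  refine abs_le_of_sq_le_sq ?_ (by norm_num)
  nlinarith

/-- The bounds of the level function near a point. -/
theorem lv_lb (hn : 0 < n) (hσ : 0 ≤ σ) (hσ1 : σ ≤ 1 / 10) (hR : 1 ≤ R) {G : ℝ}
    (hp : T4.gy n σ (R⁻¹ • p) ≤ G) (hG : 2 * σ * G ≤ 1) (hO : O ⊆ Metric.ball p 1) :
    Lb O 2 (σ * R⁻¹) (lv n σ R kap Gs) where
  sm := lv_sm.contDiffOn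
  d1 x hx k := by
    have hR0 : 0 < R := by linarith
    rw [lv_pd hR0.ne']
    have h1 := abs_wv_le hn hσ hp hG k
    have h2 := wv_sub (σ := σ) (R := R) k x p
    have h3 : |x k - p k| ≤ 1 := by
      have h4 := hO hx
      rw [Metric.mem_ball, dist_eq_norm] at h4
      have := cmp_le (x - p) k
      rw [Pi.sub_apply] at this
      linarith
    have h5 : |wv n σ R k x - wv n σ R k p| ≤ 1 / 10 := by
      rw [h2, abs_mul, abs_of_nonneg (by positivity)]
      have h6 : σ * R⁻¹ ≤ 1 / 10 := by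
        have : R⁻¹ ≤ 1 := inv_le_one_of_one_le₀ hR
        have h0 : 0 ≤ R⁻¹ := by positivity
        nlinarith
      have h0 : 0 ≤ σ * R⁻¹ := by positivity
      calc σ * R⁻¹ * |x k - p k| ≤ σ * R⁻¹ * 1 := mul_le_mul_of_nonneg_left h3 h0
        _ ≤ _ := by linarith
    have h7 : wv n σ R k x = wv n σ R k p + (wv n σ R k x - wv n σ R k p) := by ring
    rw [h7]
    refine (abs_add_le _ _).trans ?_
    linarith
  d2 x _ k j := by
    rw [lv_pd2 (by linarith : R ≠ 0)]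
    have h0 : 0 ≤ σ * R⁻¹ := by positivity
    split_ifs
    · rw [abs_of_nonneg h0]
    · rw [abs_zero]; exact h0

/-- Variation of the level function. -/
theorem lb_var {L₁ L₂ : ℝ} {l : V n → ℝ} (hO : IsOpen O) (hc : Convex ℝ O) (h : Lb O L₁ L₂ l)
    (hx : x ∈ O) (hy : y ∈ O) (hL : 0 ≤ L₁) : |l x - l y| ≤ n * L₁ * ‖x - y‖ := by
  have h1 : ∀ z ∈ O, HasFDerivWithinAt l (fderiv ℝ l z) O z := fun z hz =>
    (df_of hO h.sm hz).hasFDerivAt.hasFDerivWithinAt
  have h2 : ∀ z ∈ O, ‖fderiv ℝ l z‖ ≤ n * L₁ := by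
    intro z hz
    refine ContinuousLinearMap.opNorm_le_bound _ (by positivity) fun w => ?_
    rw [Real.norm_eq_abs, fd_pd]
    refine (sum_le1 (c := ‖w‖ * L₁) fun k => ?_).trans (le_of_eq (by ring))
    rw [abs_mul]
    exact mul_le_mul (cmp_le w k) (h.d1 z hz k) (abs_nonneg _) (norm_nonneg _)
  have := hc.norm_image_sub_le_of_norm_hasFDerivWithin_le h1 h2 hy hx
  rwa [Real.norm_eq_abs] at this

/-- The bounds only depend on the function on `O`. -/
theorem lb_congr {L₁ L₂ : ℝ} {l l' : V n → ℝ} (hO : IsOpen O) (h : Lb O L₁ L₂ l)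
    (he : EqOn l' l O) : Lb O L₁ L₂ l' := by
  have e1 : ∀ j, EqOn (pd j l') (pd j l) O := fun j x hx => by
    have : l' =ᶠ[𝓝 x] l := he.eventuallyEq_of_mem (hO.mem_nhds hx)
    show fderiv ℝ l' x _ = fderiv ℝ l x _
    rw [this.fderiv_eq]
  refine ⟨h.sm.congr he, fun x hx k => ?_, fun x hx k j => ?_⟩
  · rw [e1 k hx]; exact h.d1 x hx k
  · have : pd j l' =ᶠ[𝓝 x] pd j l := (e1 j).eventuallyEq_of_mem (hO.mem_nhds hx)
    have e2 : pd k (pd j l') x = pd k (pd j l) x := by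
      show fderiv ℝ (pd j l') x _ = fderiv ℝ (pd j l) x _
      rw [this.fderiv_eq]
    rw [e2]
    exact h.d2 x hx k j

end Vale.Agent.P088.R2.H606.EP
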