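import Vale.Agent.P088.R2.H606.Z.Wd
import Vale.Agent.P088.R2.H606.EP.Lvl

/-!
# P088, stage 3: derivatives of `u = l(x) + l(y) + 2 μ(l(p))`
-/

open Set Filter
open scoped ContDiff Topology Matrix

noncomputable section

namespace Vale.Agent.P088.R2.H606.EP

open Vale.Agent.P088.LR Vale.Agent.P088.HY Vale.Agent.P088.R2.H464.Cu
open Vale.Agent.P088.R2.H932.EP (Lb u1)
open Vale.Agent.P088.R2.H961.GW (df_of sm_pd)
open Vale.Agent.P088.R2.H606.Z (D2 hv_comp)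

variable {n : ℕ} {O : Set (V n)} {L₁ L₂ : ℝ} {l : V n → ℝ} {z w w' : VV n}

/-- The derivative of `l ∘ L`. -/
theorem hv_lin (hO : IsOpen O) (hl : Lb O L₁ L₂ l) (L : VV n →L[ℝ] V n) (hz : L z ∈ O) (w : VV n) :
    Hv w (fun z => l (L z)) (fderiv ℝ l (L z) (L w)) z := by
  have h : HasFDerivAt (fun z : VV n => l (L z)) ((fderiv ℝ l (L z)).comp L) z :=
    HasFDerivAt.comp z (df_of hO hl.sm hz).hasFDerivAt L.hasFDerivAt
  exact ⟨h.differentiableAt, by rw [h.fderiv]; rfl⟩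

theorem dl_le (hl : Lb O L₁ L₂ l) {x : V n} (hx : x ∈ O) (v : V n) :
    |fderiv ℝ l x v| ≤ n * L₁ * ‖v‖ := by
  rw [fd_pd]
  refine (sum_le1 (c := ‖v‖ * L₁) fun k => ?_).trans (le_of_eq (by ring))
  rw [abs_mul]
  exact mul_le_mul (cmp_le v k) (hl.d1 x hx k) (abs_nonneg _) (norm_nonneg _)

theorem ddl_eq (hO : IsOpen O) (hl : Lb O L₁ L₂ l) {x : V n} (hx : x ∈ O) (v v' : V n) :
    fderiv ℝ (fun x => fderiv ℝ l x v) x v' = ∑ k, v k * fderiv ℝ (pd k l) x v' := by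
  have e : (fun x => fderiv ℝ l x v) = fun x => ∑ k, v k * pd k l x := by
    funext x
    rw [fd_pd]
  have d : ∀ k, DifferentiableAt ℝ (pd k l) x := fun k => df_of hO (sm_pd hO hl.sm k) hx
  rw [e, fderiv_fun_sum fun k _ => (d k).const_mul (v k), _root_.sum_apply]
  refine Finset.sum_congr rfl fun k _ => ?_
  rw [fderiv_const_mul (d k)]
  rfl

theorem ddl_le (hO : IsOpen O) (hl : Lb O L₁ L₂ l) {x : V n} (hx : x ∈ O) (v v' : V n) :
    |fderiv ℝ (fun x => fderiv ℝ l x v) x v'| ≤ (n : ℝ) ^ 2 * L₂ * (‖v‖ * ‖v'‖) := by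
  rw [ddl_eq hO hl hx]
  have h1 : ∀ k, |fderiv ℝ (pd k l) x v'| ≤ n * (‖v'‖ * L₂) := fun k => by
    rw [fd_pd]
    refine sum_le1 (c := ‖v'‖ * L₂) fun j => ?_
    rw [abs_mul]
    exact mul_le_mul (cmp_le v' j) (hl.d2 x hx j k) (abs_nonneg _) (norm_nonneg _)
  refine (sum_le1 (c := ‖v‖ * (n * (‖v'‖ * L₂))) fun k => ?_).trans (le_of_eq (by ring))
  rw [abs_mul]
  exact mul_le_mul (cmp_le v k) (h1 k) (abs_nonneg _) (norm_nonneg _)

/-- The second derivative of `l ∘ L`. -/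
theorem hv_lin2 (hO : IsOpen O) (hl : Lb O L₁ L₂ l) (L : VV n →L[ℝ] V n) (hz : L z ∈ O)
    (w w' : VV n) : Hv w' (fun z => fderiv ℝ (fun z => l (L z)) z w)
      (fderiv ℝ (fun x => fderiv ℝ l x (L w)) (L z) (L w')) z := by
  have ho : IsOpen {y : VV n | L y ∈ O} := hO.preimage L.continuous
  have e : (fun z => fderiv ℝ (fun z => l (L z)) z w) =ᶠ[𝓝 z]
      fun z => (fun x => fderiv ℝ l x (L w)) (L z) := by
    filter_upwards [ho.mem_nhds hz] with y hy using (hv_lin hO hl L hy w).e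
  have hd : DifferentiableAt ℝ (fun x => fderiv ℝ l x (L w)) (L z) := by
    have : (fun x => fderiv ℝ l x (L w)) = fun x => ∑ k, L w k * pd k l x := by
      funext x
      rw [fd_pd]
    rw [this]
    exact DifferentiableAt.fun_sum fun k _ =>
      (df_of hO (sm_pd hO hl.sm k) hz).const_mul _
  have h : HasFDerivAt (fun z : VV n => (fun x => fderiv ℝ l x (L w)) (L z))
      ((fderiv ℝ (fun x => fderiv ℝ l x (L w)) (L z)).comp L) z :=
    HasFDerivAt.comp z hd.hasFDerivAt L.hasFDerivAt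
  have h' := h.congr_of_eventuallyEq e
  exact ⟨h'.differentiableAt, by rw [h'.fderiv]; rfl⟩

/-- Numbers of `μ` on a set of levels. -/
structure Mn (T : Set ℝ) (m₁ m₂ : ℝ) (μ : ℝ → ℝ) : Prop where
  sm : ContDiff ℝ ∞ μ
  b1 : ∀ t ∈ T, |deriv μ t| ≤ m₁
  b2 : ∀ t ∈ T, |deriv (deriv μ) t| ≤ m₂

/-- **The derivatives of `u`.** -/
theorem d2_u1 {μ : ℝ → ℝ} {m₁ m₂ : ℝ} {U : Set (VV n)} (hO : IsOpen O) (hl : Lb O L₁ L₂ l)
    (hU : IsOpen U) (hx : ∀ z ∈ U, z.1 ∈ O) (hy : ∀ z ∈ U, z.2 ∈ O) (hm : ∀ z ∈ U, mid z ∈ O)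
    {T : Set ℝ} (hT : ∀ z ∈ U, l (mid z) ∈ T) (hμ : Mn T m₁ m₂ μ) (h1 : 0 ≤ L₁) (h2 : 0 ≤ L₂)
    (hm1 : 0 ≤ m₁) (hm2 : 0 ≤ m₂) :
    D2 U (2 * n * L₁ * (1 + m₁) + 2 * (n : ℝ) ^ 2 * (L₂ * (1 + m₁) + m₂ * L₁ ^ 2)) (u1 μ l) := by
  set A := 2 * n * L₁ * (1 + m₁) + 2 * (n : ℝ) ^ 2 * (L₂ * (1 + m₁) + m₂ * L₁ ^ 2) with hA
  have a1 : 2 * n * L₁ * (1 + m₁) ≤ A := by
    have : 0 ≤ 2 * (n : ℝ) ^ 2 * (L₂ * (1 + m₁) + m₂ * L₁ ^ 2) := by positivity
    linarith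
  have a2 : 2 * (n : ℝ) ^ 2 * (L₂ * (1 + m₁) + m₂ * L₁ ^ 2) ≤ A := by
    have : 0 ≤ 2 * n * L₁ * (1 + m₁) := by positivity
    linarith
  have f1 : ∀ w : VV n, ‖ContinuousLinearMap.fst ℝ (V n) (V n) w‖ ≤ ‖w‖ := fun w => norm_fst_le w
  have f2 : ∀ w : VV n, ‖ContinuousLinearMap.snd ℝ (V n) (V n) w‖ ≤ ‖w‖ := fun w => norm_snd_le w
  have f3 : ∀ w : VV n, ‖midL n w‖ ≤ ‖w‖ := fun w => by
    rw [midL_apply]; exact H606.Z.nm_le w
  have dm : Differentiable ℝ μ := hμ.sm.differentiable (by simp)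
  have dm1 : Differentiable ℝ (deriv μ) :=
    ((contDiff_infty_iff_deriv.1 hμ.sm).2).differentiable (by simp)
  -- first derivatives
  have g1 : ∀ z ∈ U, ∀ w, Hv w (u1 μ l) (fderiv ℝ l z.1 w.1 + fderiv ℝ l z.2 w.2 +
      2 * (deriv μ (l (mid z)) * fderiv ℝ l (mid z) (midL n w))) z := by
    intro z hz w
    have b1 := hv_lin hO hl (ContinuousLinearMap.fst ℝ (V n) (V n)) (hx z hz) w
    have b2 := hv_lin hO hl (ContinuousLinearMap.snd ℝ (V n) (V n)) (hy z hz) w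
    have b3 := hv_lin hO hl (midL n) (hm z hz) w
    have b4 := hv_comp b3 (dm _).hasDerivAt
    exact (b1.add b2).add (b4.cmul 2)
  refine ⟨hU, ?_, fun z hz w => ?_, fun z hz w w' => ?_⟩
  · have s1 : ContDiffOn ℝ ∞ (fun z : VV n => l z.1) U := hl.sm.comp contDiff_fst.contDiffOn hx
    have s2 : ContDiffOn ℝ ∞ (fun z : VV n => l z.2) U := hl.sm.comp contDiff_snd.contDiffOn hy
    have s3 : ContDiffOn ℝ ∞ (fun z : VV n => l (mid z)) U :=
      hl.sm.comp contDiff_mid.contDiffOn hm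
    exact (s1.add s2).add (contDiffOn_const.mul (hμ.sm.comp_contDiffOn s3))
  · rw [(g1 z hz w).e]
    have c1 := dl_le hl (hx z hz) w.1
    have c2 := dl_le hl (hy z hz) w.2
    have c3 := dl_le hl (hm z hz) (midL n w)
    have c4 := hμ.b1 _ (hT z hz)
    have q := norm_nonneg w
    have e1 : |fderiv ℝ l z.1 w.1| ≤ n * L₁ * ‖w‖ :=
      c1.trans (mul_le_mul_of_nonneg_left (f1 w) (by positivity))
    have e2 : |fderiv ℝ l z.2 w.2| ≤ n * L₁ * ‖w‖ :=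
      c2.trans (mul_le_mul_of_nonneg_left (f2 w) (by positivity))
    have e3 : |fderiv ℝ l (mid z) (midL n w)| ≤ n * L₁ * ‖w‖ :=
      c3.trans (mul_le_mul_of_nonneg_left (f3 w) (by positivity))
    have e4 : |2 * (deriv μ (l (mid z)) * fderiv ℝ l (mid z) (midL n w))| ≤
        2 * (m₁ * (n * L₁ * ‖w‖)) := by
      rw [abs_mul, abs_mul, abs_of_pos (by norm_num : (0 : ℝ) < 2)]
      exact mul_le_mul_of_nonneg_left (mul_le_mul c4 e3 (abs_nonneg _) hm1) (by norm_num)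
    refine ((abs_add_le _ _).trans (add_le_add ((abs_add_le _ _).trans (add_le_add e1 e2))
      e4)).trans ?_
    have := mul_le_mul_of_nonneg_right a1 q
    linarith
  · have e0 : (fun z => fderiv ℝ (u1 μ l) z w) =ᶠ[𝓝 z] fun z =>
        (fderiv ℝ (fun z => l (ContinuousLinearMap.fst ℝ (V n) (V n) z)) z w +
        fderiv ℝ (fun z => l (ContinuousLinearMap.snd ℝ (V n) (V n) z)) z w) +
        2 * (deriv μ (l (midL n z)) * fderiv ℝ (fun z => l (midL n z)) z w) := by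
      filter_upwards [hU.mem_nhds hz] with y hy'
      rw [(g1 y hy' w).e,
        (hv_lin hO hl (ContinuousLinearMap.fst ℝ (V n) (V n)) (hx y hy') w).e,
        (hv_lin hO hl (ContinuousLinearMap.snd ℝ (V n) (V n)) (hy y hy') w).e,
        (hv_lin hO hl (midL n) (hm y hy') w).e]
      rfl
    have b1 := hv_lin2 hO hl (ContinuousLinearMap.fst ℝ (V n) (V n)) (hx z hz) w w'
    have b2 := hv_lin2 hO hl (ContinuousLinearMap.snd ℝ (V n) (V n)) (hy z hz) w w'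
    have b3 := hv_lin2 hO hl (midL n) (hm z hz) w w'
    have b4 := hv_comp (hv_lin hO hl (midL n) (hm z hz) w') (dm1 _).hasDerivAt
    have b5 := (b1.add b2).add ((b4.mul b3).cmul 2)
    rw [e0.fderiv_eq, b5.e]
    have q := norm_nonneg w
    have q' := norm_nonneg w'
    have k1 := ddl_le hO hl (hx z hz) w.1 w'.1
    have k2 := ddl_le hO hl (hy z hz) w.2 w'.2
    have k3 := ddl_le hO hl (hm z hz) (midL n w) (midL n w')
    have k4 : |fderiv ℝ l (mid z) (midL n w)| ≤ n * L₁ * ‖w‖ :=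
      (dl_le hl (hm z hz) _).trans (mul_le_mul_of_nonneg_left (f3 w) (by positivity))
    have k5 : |fderiv ℝ l (mid z) (midL n w')| ≤ n * L₁ * ‖w'‖ :=
      (dl_le hl (hm z hz) _).trans (mul_le_mul_of_nonneg_left (f3 w') (by positivity))
    have n2 : 0 ≤ (n : ℝ) ^ 2 * L₂ := by positivity
    have e1 : |fderiv ℝ (fun x => fderiv ℝ l x w.1) z.1 w'.1| ≤ (n : ℝ) ^ 2 * L₂ * (‖w‖ * ‖w'‖) :=
      k1.trans (mul_le_mul_of_nonneg_left
        (mul_le_mul (norm_fst_le w) (norm_fst_le w') (norm_nonneg _) q) n2)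
    have e2 : |fderiv ℝ (fun x => fderiv ℝ l x w.2) z.2 w'.2| ≤ (n : ℝ) ^ 2 * L₂ * (‖w‖ * ‖w'‖) :=
      k2.trans (mul_le_mul_of_nonneg_left
        (mul_le_mul (norm_snd_le w) (norm_snd_le w') (norm_nonneg _) q) n2)
    have e3 : |fderiv ℝ (fun x => fderiv ℝ l x (midL n w)) (mid z) (midL n w')| ≤
        (n : ℝ) ^ 2 * L₂ * (‖w‖ * ‖w'‖) :=
      k3.trans (mul_le_mul_of_nonneg_left
        (mul_le_mul (f3 w) (f3 w') (norm_nonneg _) q) n2)
    have c1 := hμ.b1 _ (hT z hz)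
    have c2 := hμ.b2 _ (hT z hz)
    have e4 : fderiv ℝ (fun z => l (midL n z)) z w = fderiv ℝ l (mid z) (midL n w) :=
      (hv_lin hO hl (midL n) (hm z hz) w).e
    have t1 : |deriv (deriv μ) (l (mid z)) * fderiv ℝ l (mid z) (midL n w') *
        fderiv ℝ l (mid z) (midL n w)| ≤ m₂ * (n * L₁ * ‖w'‖) * (n * L₁ * ‖w‖) := by
      rw [abs_mul, abs_mul]
      exact mul_le_mul (mul_le_mul c2 k5 (abs_nonneg _) hm2) k4 (abs_nonneg _) (by positivity)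
    have t2 : |deriv μ (l (mid z)) *
        fderiv ℝ (fun x => fderiv ℝ l x (midL n w)) (mid z) (midL n w')| ≤
        m₁ * ((n : ℝ) ^ 2 * L₂ * (‖w‖ * ‖w'‖)) := by
      rw [abs_mul]
      exact mul_le_mul c1 e3 (abs_nonneg _) hm1
    have T : ∀ a b c₁ c₂ : ℝ, |a| ≤ (n : ℝ) ^ 2 * L₂ * (‖w‖ * ‖w'‖) →
        |b| ≤ (n : ℝ) ^ 2 * L₂ * (‖w‖ * ‖w'‖) → |c₁| ≤ m₂ * (n * L₁ * ‖w'‖) * (n * L₁ * ‖w‖) →
        |c₂| ≤ m₁ * ((n : ℝ) ^ 2 * L₂ * (‖w‖ * ‖w'‖)) →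
        |a + b + 2 * (c₁ + c₂)| ≤ A * (‖w‖ * ‖w'‖) := by
      intro a b c₁ c₂ ha hb hc hd
      have e5 : |a + b + 2 * (c₁ + c₂)| ≤ |a| + |b| + 2 * (|c₁| + |c₂|) := by
        refine (abs_add_le _ _).trans (add_le_add (abs_add_le _ _) ?_)
        rw [abs_mul, abs_of_pos (by norm_num : (0 : ℝ) < 2)]
        exact mul_le_mul_of_nonneg_left (abs_add_le _ _) (by norm_num)
      refine e5.trans ?_
      have := mul_le_mul_of_nonneg_right a2 (mul_nonneg q q')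
      linarith
    exact T _ _ _ _ e1 e2 (by rw [e4]; exact t1) t2

end Vale.Agent.P088.R2.H606.EP
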