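import Vale.Agent.P088.R2.H606.EP.Ten
import Vale.Agent.P088.R2.H606.EP.LvlG
import Vale.Agent.P088.R2.H606.EP.Prf
import Vale.Agent.P088.R2.H606.EP.Slp
import Vale.Agent.P088.R2.H606.EP.Ud
import Vale.Agent.P088.R2.H606.EP.Muc
import Vale.Agent.P088.R2.H606.Z.W1

/-!
# P088, stage 3: the local data of a near pair

For a near pair `z` (`r ≤ 2 c₀`) with `-1 ≤ u ≤ utb`: on the ball `Ob z` of radius `1` about the
midpoint the level function is `lv`; near `z` the weight is `Φ(u) + e^u S(r²)`.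
-/

open Set Filter
open scoped ContDiff Topology Matrix

noncomputable section

namespace Vale.Agent.P088.R2.H606.EP

open Vale.Agent.P088.LR Vale.Agent.P088.HY Vale.Agent.P088.R2.H464.Cu Vale.Agent.P088.R2.H31.EP
open Vale.Agent.P088.R2.H932.EP (Lb u1 Cd)
open Vale.Agent.P088.R2.H961.GW (df_of sm_pd Sm)
open Vale.Agent.P088.R2.H606.Z (D2 FS Wg)

variable {n : ℕ} {q : Cst} {d : Pk n} {z w : VV n}

/-- The numbers which are needed. -/
structure Lm (n : ℕ) (q : Cst) : Prop extends Nm q where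
  n1 : 1 ≤ n
  σ0 : 0 < q.σ
  σ1 : q.σ ≤ 1 / 5000
  eg0 : 0 < q.e₁
  Rn : 100 * (n : ℝ) ≤ q.R
  Rc : 8 * cSt ≤ q.R
  ε0 : 0 ≤ q.ε
  ε1 : q.ε ≤ 1
  εI : q.ε ≤ eI n
  εT : 8 * (n : ℝ) * (cT n * q.ε) ≤ 1
  c0 : 0 < q.c₀
  c1 : q.c₀ ≤ 1 / 8
  r1 : 2 ≤ q.r₁ * Real.exp (-1)

/-- The ball about the midpoint. -/
def Ob (z : VV n) : Set (V n) := Metric.ball (mid z) 1

/-- The pairs near `z`. -/
def Uz (g : MF n) (z : VV n) : Set (VV n) := {w | w.1 ∈ Ob z ∧ w.2 ∈ Ob z ∧ 2 * rq g w < 1}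

theorem Ob_open (z : VV n) : IsOpen (Ob z) := Metric.isOpen_ball

theorem Ob_convex (z : VV n) : Convex ℝ (Ob z) := convex_ball _ _

theorem mid_Ob (z : VV n) : mid z ∈ Ob z := Metric.mem_ball_self one_pos

theorem fst_Ob (h : ‖dif z‖ < 1) : z.1 ∈ Ob z := by
  unfold Ob
  rw [Metric.mem_ball, dist_eq_norm]
  exact (dist_mid1 z).trans_lt h

theorem snd_Ob (h : ‖dif z‖ < 1) : z.2 ∈ Ob z := by
  unfold Ob
  rw [Metric.mem_ball, dist_eq_norm]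
  exact (dist_mid2 z).trans_lt h

/-- `lv(x) + lv(y) = 2 lv(p) + (σ / 4R) |x - y|²`. -/
theorem lv_mid {σ R kap Gs : ℝ} (hR : R ≠ 0) (z : VV n) :
    lv n σ R kap Gs z.1 + lv n σ R kap Gs z.2 =
      2 * lv n σ R kap Gs (mid z) + σ / (4 * R) * dt (dif z) (dif z) := by
  have e : ∀ x, lv n σ R kap Gs x = Real.log (kap / R) +
      R * ((∑ i, (R⁻¹ * x i) * T3.e0 n i) - 1 + σ / 2 * (∑ i, (R⁻¹ * x i - T3.e0 n i) ^ 2) - Gs) := by
    intro x
    unfold lv T4.gy HY.sq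
    simp only [Pi.smul_apply, Pi.sub_apply, smul_eq_mul]
  have e1 : ∑ i, (R⁻¹ * z.1 i) * T3.e0 n i + ∑ i, (R⁻¹ * z.2 i) * T3.e0 n i =
      2 * ∑ i, (R⁻¹ * mid z i) * T3.e0 n i := by
    rw [← Finset.sum_add_distrib, Finset.mul_sum]
    refine Finset.sum_congr rfl fun i _ => ?_
    unfold mid
    simp only [Pi.smul_apply, Pi.add_apply, smul_eq_mul]
    ring
  have e2 : ∑ i, (R⁻¹ * z.1 i - T3.e0 n i) ^ 2 + ∑ i, (R⁻¹ * z.2 i - T3.e0 n i) ^ 2 =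
      2 * ∑ i, (R⁻¹ * mid z i - T3.e0 n i) ^ 2 + R⁻¹ ^ 2 / 2 * dt (dif z) (dif z) := by
    unfold dt
    rw [← Finset.sum_add_distrib, Finset.mul_sum, Finset.mul_sum, ← Finset.sum_add_distrib]
    refine Finset.sum_congr rfl fun i _ => ?_
    unfold mid dif
    simp only [Pi.smul_apply, Pi.add_apply, Pi.sub_apply, smul_eq_mul]
    ring
  rw [e, e, e]
  have e3 : R * (σ / 2 * (R⁻¹ ^ 2 / 2 * dt (dif z) (dif z))) =
      σ / (4 * R) * dt (dif z) (dif z) := by field_simp; ring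
  rw [← e3]
  linear_combination R * e1 + R * (σ / 2) * e2

variable (h : PkOk q d) (m : Lm n q)
include h m

/-- The tensors. -/
theorem ten (O : Set (V n)) (hO : IsOpen O) :
    Nr O (cT n * q.ε) (cT n * q.ε * q.R⁻¹) (cT n * q.ε * q.R⁻¹ ^ 2) d.s₁ ∧
    Nr O (cT n * q.ε) (cT n * q.ε * q.R⁻¹) (cT n * q.ε * q.R⁻¹ ^ 2) d.s₂ ∧
    Nr O (cT n * q.ε) (cT n * q.ε * q.R⁻¹) (cT n * q.ε * q.R⁻¹ ^ 2) (gi d.s₁) := by
  have hR : 0 < q.R := by linarith [m.R1]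
  exact ⟨rg_n1 h.rg (by norm_num) m.ε0 hR, rg_n2 h.rg (by norm_num) m.ε0 hR,
    (rg_ng h.rg (by norm_num) m.ε0 hR hO m.εI m.ε1).1⟩

theorem eT_le : (n : ℝ) * (cT n * q.ε) ≤ 1 / 8 ∧ cT n * q.ε ≤ 1 / 8 := by
  have h1 := m.εT
  have hn : (1 : ℝ) ≤ n := by exact_mod_cast m.n1
  have h2 := cT_ge n
  have h3 : 0 ≤ cT n * q.ε := mul_nonneg (by linarith) m.ε0
  constructor <;> nlinarith

/-- The distance and the metric. -/
theorem dif_le (hr : d.r2 z ≤ 4 * q.c₀ ^ 2) : ‖dif z‖ ≤ 4 * q.c₀ ∧ ‖dif z‖ ≤ 1 / 2 := by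
  have hn : 0 < n := m.n1
  obtain ⟨-, -, ng⟩ := ten h m univ isOpen_univ
  have h1 := (rq_bd ng (by linarith [(eT_le h m).1] : (n : ℝ) * (cT n * q.ε) ≤ 1 / 2)
    (mem_univ (mid z))).1
  have h2 := H606.Z.nsq_le_dt hn (dif z)
  have h3 : 2 * rq (gi d.s₁) z ≤ 4 * q.c₀ ^ 2 := hr
  have hc := m.c0
  have h4 : ‖dif z‖ ^ 2 ≤ (4 * q.c₀) ^ 2 := by nlinarith
  have h5 := (abs_le_of_sq_le_sq' h4 (by linarith)).2
  have := m.c1
  exact ⟨h5, by linarith⟩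

/-- `u` and the levels of the two points. -/
theorem u_l (z : VV n) : |d.u q z - (d.l z.1 + d.l z.2)| ≤ 1 / 4 := by
  have e : d.u q z - (d.l z.1 + d.l z.2) = 2 * (d.χ (d.r2 z) * d.μc q (d.l (mid z))) := by
    unfold Pk.u H31.EP.uu
    simp only [Pk.F]
    have : d.r2 z = H31.EP.r2 (gi d.s₁) z := rfl
    rw [this]
    ring
  have h1 := h.χb (d.r2 z)
  have h2 := (muc_b h m.Rc (d.l (mid z))).2.1
  rw [e, abs_mul, abs_mul, abs_of_nonneg h1.1, abs_of_pos (by norm_num : (0 : ℝ) < 2)]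
  have := mul_le_mul h1.2 h2 (abs_nonneg _) zero_le_one
  linarith

omit m in
theorem l_eq : d.l = H475.levG n q.σ q.R d.kap d.Gs := h.lev.lit

/-- The level function is `lv` near a point of level at least `l₀ - R / 2`. -/
theorem eq_lv {p : V n} (hp : d.l₀ q - q.R / 2 ≤ d.l p) :
    EqOn d.l (lv n q.σ q.R d.kap d.Gs) (Metric.ball p 1) := by
  have hn : (1 : ℝ) ≤ n := by exact_mod_cast m.n1
  rw [l_eq h] at hp ⊢
  exact levG_ball m.n1 m.σ0 m.σ1 (by linarith [m.Rn]) hp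

theorem dt_le4 (hq : ‖dif z‖ ≤ 1 / 2) : q.σ / (4 * q.R) * dt (dif z) (dif z) ≤ 1 / 1000 ∧
    0 ≤ q.σ / (4 * q.R) * dt (dif z) (dif z) := by
  have hR : 0 < q.R := by linarith [m.R1]
  have hn : (1 : ℝ) ≤ n := by exact_mod_cast m.n1
  have h1 := H606.Z.dt_le_nsq (dif z)
  have h2 : 0 ≤ dt (dif z) (dif z) := dt_nonneg _
  have h3 : dt (dif z) (dif z) ≤ n := by
    have h0 := norm_nonneg (dif z)
    have : ‖dif z‖ ^ 2 ≤ 1 := by nlinarith
    nlinarith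
  have h4 : q.σ / (4 * q.R) * dt (dif z) (dif z) ≤ q.σ / (4 * q.R) * n :=
    mul_le_mul_of_nonneg_left h3 (by have := m.σ0; positivity)
  have h5 : q.σ / (4 * q.R) * n ≤ 1 / 1000 := by
    rw [div_mul_eq_mul_div, div_le_iff₀ (by positivity)]
    have := m.σ1
    have := m.σ0
    have := m.Rn
    nlinarith
  exact ⟨h4.trans h5, mul_nonneg (by have := m.σ0; positivity) h2⟩

/-- **The level of the midpoint.** -/
theorem l_mid (hq : ‖dif z‖ ≤ 1 / 2) (hu : -1 ≤ d.u q z) :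
    d.l₀ q - q.R / 4 ≤ d.l (mid z) ∧ |d.u q z - 2 * d.l (mid z)| ≤ 1 / 2 := by
  have hR : 0 < q.R := by linarith [m.R1]
  have hR2 := m.R2
  have l1 := l0_le' h m.toNm
  have k := abs_le.1 (u_l h m z)
  have key : ∀ p : V n, d.l₀ q - q.R / 2 ≤ d.l p → z.1 ∈ Metric.ball p 1 → z.2 ∈ Metric.ball p 1 →
      d.l z.1 + d.l z.2 = 2 * d.l (mid z) + q.σ / (4 * q.R) * dt (dif z) (dif z) := by
    intro p hp h1 h2
    have e := eq_lv h m hp
    have h3 : mid z ∈ Metric.ball p 1 := mid_mem (convex_ball p 1) h1 h2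
    rw [e h1, e h2, e h3]
    exact lv_mid hR.ne' z
  have hd : dist z.1 z.2 < 1 := by
    rw [dist_eq_norm]
    exact lt_of_le_of_lt hq (by norm_num)
  have e : d.l z.1 + d.l z.2 = 2 * d.l (mid z) + q.σ / (4 * q.R) * dt (dif z) (dif z) := by
    rcases le_total (d.l z.2) (d.l z.1) with h1 | h1
    · refine key z.1 (by linarith) (Metric.mem_ball_self one_pos) ?_
      rw [Metric.mem_ball, dist_comm]; exact hd
    · refine key z.2 (by linarith) ?_ (Metric.mem_ball_self one_pos)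
      rw [Metric.mem_ball]; exact hd
  have k2 := dt_le4 h m hq
  refine ⟨by linarith, ?_⟩
  rw [abs_le]
  constructor <;> linarith

/-- The local data. -/
structure Loc (q : Cst) (d : Pk n) (z : VV n) : Prop where
  q1 : ‖dif z‖ ≤ 4 * q.c₀
  q2 : ‖dif z‖ ≤ 1 / 2
  hx : z.1 ∈ Ob z
  hy : z.2 ∈ Ob z
  lo : d.l₀ q - q.R / 4 ≤ d.l (mid z)
  hi : d.l (mid z) ≤ d.l₀ q + 236 / 100 * q.R
  um : |d.u q z - 2 * d.l (mid z)| ≤ 1 / 2
  el : EqOn d.l (lv n q.σ q.R d.kap d.Gs) (Ob z)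
  lb : Lb (Ob z) 2 (q.σ * q.R⁻¹) d.l
  uo : IsOpen (Uz (gi d.s₁) z)
  uz : z ∈ Uz (gi d.s₁) z
  eu : EqOn (d.u q) (u1 (d.μc q) d.l) (Uz (gi d.s₁) z)
  eW : EqOn (d.W q) (Wg d.Φ (prS q.e₁) (d.u q) (gi d.s₁)) (Uz (gi d.s₁) z)

omit h m in
theorem Uz_open (hg : ∀ i j, ContDiff ℝ ∞ (fun x => gi d.s₁ x i j)) : IsOpen (Uz (gi d.s₁) z) := by
  have h1 : Continuous (rq (gi d.s₁)) := by
    have h2 : Sm {z : VV n | mid z ∈ (univ : Set (V n))} (rq (gi d.s₁)) :=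
      sm_rq fun i j => (hg i j).contDiffOn
    have h3 : {z : VV n | mid z ∈ (univ : Set (V n))} = univ := by simp
    rw [h3] at h2
    exact (contDiffOn_univ.1 h2).continuous
  have a1 : IsOpen {w : VV n | w.1 ∈ Ob z} := (Ob_open z).preimage continuous_fst
  have a2 : IsOpen {w : VV n | w.2 ∈ Ob z} := (Ob_open z).preimage continuous_snd
  have a3 : IsOpen {w : VV n | 2 * rq (gi d.s₁) w < 1} :=
    isOpen_lt (continuous_const.mul h1) continuous_const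
  exact a1.inter (a2.inter a3)

/-- **The local data of a near pair.** -/
theorem loc (hr : d.r2 z ≤ 4 * q.c₀ ^ 2) (hu : -1 ≤ d.u q z) (hu2 : d.u q z ≤ d.utb q) :
    Loc q d z := by
  have hR : 0 < q.R := by linarith [m.R1]
  have hR2 := m.R2
  have hRn := m.Rn
  have hn : (1 : ℝ) ≤ n := by exact_mod_cast m.n1
  obtain ⟨q1, q2⟩ := dif_le h m hr
  obtain ⟨lo, um⟩ := l_mid h m q2 hu
  have l1 := l0_le' h m.toNm
  have l0 := l0_ge' h m.toNm
  have hq : ‖dif z‖ < 1 := lt_of_le_of_lt q2 (by norm_num)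
  have hx := fst_Ob hq
  have hy := snd_Ob hq
  have um' := abs_le.1 um
  have hi : d.l (mid z) ≤ d.l₀ q + 236 / 100 * q.R := by
    unfold Pk.utb at hu2
    linarith
  have el : EqOn d.l (lv n q.σ q.R d.kap d.Gs) (Ob z) := eq_lv h m (by linarith)
  have hG : T4.gy n q.σ (q.R⁻¹ • mid z) ≤ 3 := by
    rw [gy_lv (kap := d.kap) (Gs := d.Gs) hR.ne', ← el (mid_Ob z), div_le_iff₀ hR]
    have : d.l₀ q = Real.log (d.kap / q.R) - q.R * d.Gs := rfl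
    linarith
  have lb : Lb (Ob z) 2 (q.σ * q.R⁻¹) d.l := by
    refine lb_congr (Ob_open z) ?_ el
    exact lv_lb m.n1 m.σ0.le (by linarith [m.σ1]) m.R1 hG (by linarith [m.σ1]) subset_rfl
  obtain ⟨-, -, ng⟩ := ten h m univ isOpen_univ
  have hg : ∀ i j, ContDiff ℝ ∞ (fun x => gi d.s₁ x i j) := fun i j =>
    contDiffOn_univ.1 (ng.sm i j)
  have r4 : 2 * rq (gi d.s₁) z < 1 := by
    have h3 : 2 * rq (gi d.s₁) z ≤ 4 * q.c₀ ^ 2 := hr
    have := m.c0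
    have := m.c1
    nlinarith
  -- the levels on the ball
  have lv_hi : ∀ x ∈ Ob z, d.l x ≤ d.l₀ q + 26 / 10 * q.R := by
    intro x hx
    have h1 := lb_var (Ob_open z) (Ob_convex z) lb hx (mid_Ob z) (by norm_num)
    have h2 : ‖x - mid z‖ ≤ 1 := by
      have : dist x (mid z) < 1 := hx
      rw [dist_eq_norm] at this
      exact this.le
    have h3 := (abs_le.1 h1).2
    have h4 : n * 2 * ‖x - mid z‖ ≤ n * 2 * 1 := mul_le_mul_of_nonneg_left h2 (by positivity)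
    linarith
  refine ⟨q1, q2, hx, hy, lo, hi, um, el, lb, Uz_open hg, ⟨hx, hy, r4⟩, fun w hw => ?_,
    fun w hw => ?_⟩
  · unfold Pk.u H31.EP.uu u1
    have e1 : d.χ (H31.EP.r2 (gi d.s₁) w) = 1 := h.χ1 _ (le_of_lt hw.2.2)
    simp only [Pk.F]
    rw [e1, one_mul]
  · have p1 : d.P w.1 = w.1 := h.ret.id _ ((lv_hi _ hw.1).trans (by linarith))
    have p2 : d.P w.2 = w.2 := h.ret.id _ ((lv_hi _ hw.2.1).trans (by linarith))
    have t1 := h.Θ0 _ (lv_hi _ hw.1)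
    have t2 := h.Θ0 _ (lv_hi _ hw.2.1)
    unfold Pk.W WT
    rw [p1, p2, t1, t2, add_zero, add_zero]
    unfold WW Wg
    have e2 : H31.EP.r2 (gi d.s₁) w ≤ (d.F q).rc ^ 2 := by
      have h1 : H31.EP.r2 (gi d.s₁) w < 1 := hw.2.2
      have h2 : 1 ≤ (d.F q).rc := by
        show 1 ≤ q.r₁ * Real.exp (-1) / 2
        linarith [m.r1]
      nlinarith
    have e3 : ((w.1, w.2) : VV n) = w := rfl
    rw [e3, st_in e2]
    simp only [Pk.F, one_mul]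
    rfl

end Vale.Agent.P088.R2.H606.EP
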