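import Vale.Agent.P088.R2.H606.EP.W1p

/-!
# P088, stage 3, zone II: the energies and the errors of the fields on the package
-/

open Set Filter
open scoped ContDiff Topology Matrix

noncomputable section

namespace Vale.Agent.P088.R2.H606.EP

open Vale.Agent.P088.LR Vale.Agent.P088.HY Vale.Agent.P088.R2.H464.Cu Vale.Agent.P088.R2.H31.EP
open Vale.Agent.P088.R2.H961.GW (Sl slx sly Sm)
open Vale.Agent.P088.R2.H606.Z (SB SM cF cF_pos en_of er_of)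
open Vale.Agent.P088.R2.H960.W Vale.Agent.P088.R2.H644 Vale.Agent.P088.R2.H86.Z
  Vale.Agent.P088.R2.H747.S Vale.Agent.P088.R2.H551.E

variable {n : ℕ} {q : Cst} {d : Pk n} {z : VV n} {X c₁ t η : ℝ} {k : VV n → ℝ}

theorem card_n (n : ℕ) : (Fintype.card (Fin n) : ℝ) = n := by simp

/-- The constant of the energies. -/
def Y1 (n : ℕ) (q : Cst) : ℝ := 3 * (n : ℝ) ^ 2 * A2 n * (1 + 2 * (n : ℝ) ^ 2 * Ck n q)

/-- The constant of the fields. -/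
def Y2 (n : ℕ) (q : Cst) : ℝ :=
  (n : ℝ) ^ 2 * (24 * A1 n q + 44 * (2 * n * A1 n q)) + n * (4 * (2 * n * A1 n q)) +
    16 / (1 / 8) * ((2 * n * A1 n q) ^ 2 * n)

theorem A1_nonneg (nr : H932.EP.NrC n q) : 0 ≤ A1 n q := by
  have h1 := (Bk_ge nr).1
  have h2 := (Bn_ge n).1
  have : 0 ≤ Bk n q := by linarith
  unfold A1 H983.Fl.Cz
  positivity

/-- **The energies**, for every `k` with `|D k| ≤ C k / r`. -/
theorem en_pk {C₂ : ℝ} (h : PkOk q d) (m : Zn n (aN n) X q) (A : Al (aN n) X q d z)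
    (k0 : 0 ≤ k z) (hk₁ : ∀ i, |d.sx.D i k z| ≤ C₂ * (k z / √(d.r2 z)))
    (hk₂ : ∀ i, |d.sy.D i k z| ≤ C₂ * (k z / √(d.r2 z))) (hη : 0 ≤ η)
    (hm : 3 * (n : ℝ) ^ 2 * A2 n * (1 + 2 * (n : ℝ) ^ 2 * C₂) ≤ η * (cF n * d.m q z)) :
    |k z * d.sx.Λ (d.W q) z + d.sx.Γ k (d.W q) z| ≤ η * (k z * d.sx.F (d.W q) z) ∧
      |k z * d.sy.Λ (d.W q) z + d.sy.Γ k (d.W q) z| ≤ η * (k z * d.sy.F (d.W q) z) := by
  obtain ⟨r0, r1, r2, -⟩ := al_num h m A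
  obtain ⟨s1, s2⟩ := sb_pk h m A
  obtain ⟨t1, t2⟩ := sm_pk h m.toLm z
  have hE : 0 < d.E q z := Real.exp_pos _
  have e : d.E q z * √(d.r2 z) ^ 2 = d.m q z := by rw [r2]; rfl
  have hm' : 3 * (n : ℝ) ^ 2 * A2 n * (1 + 2 * (Fintype.card (Fin n) : ℝ) ^ 2 * C₂) ≤
      η * (cF n * (d.E q z * √(d.r2 z) ^ 2)) := by rw [card_n, e]; exact hm
  exact ⟨en_of t1 s1 r0 hE.le k0 hk₁ hη hm', en_of t2 s2 r0 hE.le k0 hk₂ hη hm'⟩

/-- The bounds of the fields. -/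
theorem c_le (hc : 0 < c₁) (hc1 : c₁ ≤ 1 / 3) (h : PkOk q d) (m : Zn n (aN n) X q)
    (A : Al (aN n) X q d z) (i : Fin n) : |(d.wn q).c₁ (kE c₁ d q) i z| ≤ 2 * n * A1 n q ∧
      |(d.wn q).c₂ (kE c₁ d q) i z| ≤ 2 * n * A1 n q := by
  have F := fb_pk hc hc1 h m (aN_b m.n1).2 A
  obtain ⟨t1, t2⟩ := sm_pk h m.toLm z
  rw [F.e₁ i, F.e₂ i]
  constructor
  · refine (sum_le1 (c := 2 * A1 n q) fun j => ?_).trans (le_of_eq (by ring))
    rw [abs_mul]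
    exact mul_le_mul (t1.s2 i j) (F.b₁ j) (abs_nonneg _) (by norm_num)
  · refine (sum_le1 (c := 2 * A1 n q) fun j => ?_).trans (le_of_eq (by ring))
    rw [abs_mul]
    exact mul_le_mul (t2.s2 i j) (F.b₂ j) (abs_nonneg _) (by norm_num)

/-- The arithmetic of the errors. -/
theorem er_arith {Y N m k kk x : ℝ} (hY : 0 ≤ Y) (hm : 0 < m) (hk : 0 ≤ kk)
    (hkk : kk ≤ k) (h1 : 4 * Y ≤ η * x) (hη : 0 ≤ η) (ke : x * (1 + N ^ 2 / m ^ 2) ≤ kk)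
    (h2 : 2 * Y ≤ η * m) : Y * (1 + (N + kk) / m) ≤ η * k := by
  have a1 : N / m ≤ 1 + 2 * (N ^ 2 / m ^ 2) := by
    have : N ^ 2 / m ^ 2 = (N / m) ^ 2 := by rw [div_pow]
    rw [this]
    nlinarith [sq_nonneg (N / m - 1)]
  have a2 : Y * (1 + N / m) ≤ η / 2 * kk := by
    have b1 := mul_le_mul_of_nonneg_left a1 hY
    have b2 : 0 ≤ 1 + N ^ 2 / m ^ 2 := by positivity
    have b3 := mul_le_mul_of_nonneg_right h1 b2
    have b4 := mul_le_mul_of_nonneg_left ke hη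
    nlinarith
  have a3 : Y * (kk / m) ≤ η / 2 * kk := by
    rw [← mul_div_assoc, div_le_iff₀ hm]
    have := mul_le_mul_of_nonneg_right h2 hk
    linarith
  have e : Y * (1 + (N + kk) / m) = Y * (1 + N / m) + Y * (kk / m) := by
    rw [add_div]; ring
  rw [e]
  have := mul_le_mul_of_nonneg_left hkk hη
  linarith

/-- **The errors of the fields**, for every `k ≥ kz`. -/
theorem er_pk {x : ℝ} (hc : 0 < c₁) (hc1 : c₁ ≤ 1 / 3) (h : PkOk q d) (m : Zn n (aN n) X q)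
    (A : Al (aN n) X q d z) (hkk : kz c₁ d q z ≤ k z) (hη : 0 ≤ η)
    (h1 : 4 * Y2 n q ≤ η * x) (ke : x * (1 + d.N q z ^ 2 / d.m q z ^ 2) ≤ kz c₁ d q z)
    (h2 : 2 * Y2 n q ≤ η * d.m q z) (f : VV n → ℝ) :
    8 * |eC d.sx ((d.wn q).c₁ (kE c₁ d q)) (0 : VV n → ℝ) (d.W q) f z| +
        16 / (1 / 8) * cY d.sx ((d.wn q).c₁ (kE c₁ d q)) (d.W q) f z ^ 2 ≤
      η * (k z * ((∑ i, YY d.sx (d.W q) f i z ^ 2) + d.sx.F (d.W q) z * f z ^ 2)) ∧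
    8 * |eC d.sy ((d.wn q).c₂ (kE c₁ d q)) (0 : VV n → ℝ) (d.W q) f z| +
        16 / (1 / 8) * cY d.sy ((d.wn q).c₂ (kE c₁ d q)) (d.W q) f z ^ 2 ≤
      η * (k z * ((∑ i, YY d.sy (d.W q) f i z ^ 2) + d.sy.F (d.W q) z * f z ^ 2)) := by
  obtain ⟨r0, r1, r2, hN, hN0⟩ := al_num h m A
  obtain ⟨s1, s2⟩ := sb_pk h m A
  obtain ⟨t1, t2⟩ := sm_pk h m.toLm z
  obtain ⟨k0, -⟩ := kz_b hc h m A
  have hE : 0 < d.E q z := Real.exp_pos _
  have e : d.E q z * √(d.r2 z) ^ 2 = d.m q z := by rw [r2]; rfl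
  have hm : 0 < d.m q z := by linarith [A.mX, m.X0]
  have F := fb_pk hc hc1 h m (aN_b m.n1).2 A
  have cb := fun i => c_le hc hc1 h m A i
  have A10 := A1_nonneg m.nr
  have hn : (0 : ℝ) ≤ n := Nat.cast_nonneg n
  set A₀ : ℝ := 2 * n * A1 n q with hA₀
  set Q : ℝ := 1 + (d.N q z + kz c₁ d q z) / d.m q z with hQ
  have Q1 : 1 ≤ Q := by
    have : 0 ≤ (d.N q z + kz c₁ d q z) / d.m q z := by positivity
    linarith
  have A₀0 : 0 ≤ A₀ := by positivity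
  have Y0 : 0 ≤ Y2 n q := by unfold Y2; positivity
  have key := er_arith (Y := Y2 n q) Y0 hm k0.le hkk h1 hη ke h2
  rw [← hQ] at key
  have hm2 : (Fintype.card (Fin n) : ℝ) ^ 2 * (24 * (A1 n q * Q) + 44 * A₀) +
      (Fintype.card (Fin n) : ℝ) * (4 * A₀) + 16 / (1 / 8) * (A₀ ^ 2 * Fintype.card (Fin n)) ≤
        η * k z := by
    refine le_trans ?_ key
    rw [card_n]
    have e2 : Y2 n q * Q = (n : ℝ) ^ 2 * (24 * (A1 n q * Q)) + ((n : ℝ) ^ 2 * (44 * A₀) +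
        n * (4 * A₀) + 16 / (1 / 8) * (A₀ ^ 2 * n)) * Q := by
      unfold Y2
      rw [← hA₀]
      ring
    rw [e2]
    have p : 0 ≤ (n : ℝ) ^ 2 * (44 * A₀) + n * (4 * A₀) + 16 / (1 / 8) * (A₀ ^ 2 * n) := by
      positivity
    have := mul_le_mul_of_nonneg_left Q1 p
    linarith
  have hF : ∀ B : ℝ, 4 * A₀ * 0 ≤ η * (k z * (cF n * B ^ 2)) := by
    intro B
    rw [mul_zero]
    have := cF_pos m.n1
    have : 0 ≤ k z := by linarith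
    positivity
  have dQ : A1 n q * (1 + (d.N q z + kz c₁ d q z) / (d.E q z * √(d.r2 z) ^ 2)) = A1 n q * Q := by
    rw [e]
  have kk0 : 0 ≤ k z := by linarith
  constructor
  · refine er_of t1 s1 (A₀ := A₀) (A₁ := A1 n q * Q) (V := 0) kk0 (fun l => (cb l).1)
      (fun i l => ?_) A₀0 (by positivity) (by simp) (by norm_num) (hF _) hm2 hη f
    rw [← dQ]; exact F.d₁ i l
  · refine er_of t2 s2 (A₀ := A₀) (A₁ := A1 n q * Q) (V := 0) kk0 (fun l => (cb l).2)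
      (fun i l => ?_) A₀0 (by positivity) (by simp) (by norm_num) (hF _) hm2 hη f
    rw [← dQ]; exact F.d₂ i l

end Vale.Agent.P088.R2.H606.EP
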