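import Vale.Agent.P088.R2.H606.EP.En
import Vale.Agent.P088.R2.H238.Z.KeP
import Vale.Agent.P088.R2.H870.Z2.Glue2

/-!
# P088, stage 3, zone II: the fields `fb`, `wb`, `en`, `er` of `PtII2` on the package

`Row`: what is known at the points where one of the leaves `z2a`, `z2b` is alive; `row_ev`.
-/

open Set Filter
open scoped ContDiff Topology Matrix

noncomputable section

namespace Vale.Agent.P088.R2.H606.EP

open Vale.Agent.P088.LR Vale.Agent.P088.HY Vale.Agent.P088.R2.H464.Cu Vale.Agent.P088.R2.H31.EP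
open Vale.Agent.P088.R2.H961.GW (Sl slx sly Sm)
open Vale.Agent.P088.R2.H606.Z (SB SM cF cF_pos en_of er_of)
open Vale.Agent.P088.R2.H960.W Vale.Agent.P088.R2.H644 Vale.Agent.P088.R2.H86.Z
  Vale.Agent.P088.R2.H747.S Vale.Agent.P088.R2.H551.E Vale.Agent.P088.R2.H870.Z2

/-! ### Monotonicity -/

section

variable {E ι α : Type*} [NormedAddCommGroup E] [NormedSpace ℝ E] [Fintype ι] [Fintype α]
  {σ τ : Sl E ι} {W : E → ℝ} {A A' En N r k : ℝ} {z : E} {C₁ C₂ c c' : ι → E → ℝ}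
  {p q : α → ι → E → ℝ}

theorem W1_mono (h : R2.H870.Z2.W1 σ τ W A En N r z) (hA : A ≤ A') (hA0 : 0 < A) (hE : 0 ≤ En)
    (hN : 0 ≤ N) (hr : 0 ≤ r) : R2.H870.Z2.W1 σ τ W A' En N r z where
  x i := (h.x i).trans (mul_le_mul_of_nonneg_right hA (by positivity))
  y i := (h.y i).trans (mul_le_mul_of_nonneg_right hA (by positivity))
  s i := (h.s i).trans (mul_le_mul_of_nonneg_right hA (by positivity))
  F₁ := h.F₁.trans (mul_le_mul_of_nonneg_right hA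
    (nonneg_of_mul_nonneg_right ((sq_nonneg _).trans h.F₁) hA0))
  F₂ := h.F₂.trans (mul_le_mul_of_nonneg_right hA
    (nonneg_of_mul_nonneg_right ((sq_nonneg _).trans h.F₂) hA0))

theorem FB0_mono (h : FB0 σ τ C₁ C₂ c c' A En N r k z) (hA : A ≤ A') (hE : 0 ≤ En)
    (hN : 0 ≤ N) (hr : 0 ≤ r) (hk : 0 ≤ k) : FB0 σ τ C₁ C₂ c c' A' En N r k z where
  e₁ := h.e₁
  e₂ := h.e₂
  b₁ j := (h.b₁ j).trans hA
  b₂ j := (h.b₂ j).trans hA
  df j := (h.df j).trans (mul_le_mul_of_nonneg_right hA (by positivity))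

theorem MB_mono (h : R2.H870.Z2.MB σ τ p q A r z) (hA : A ≤ A') (hr : 0 ≤ r) :
    R2.H870.Z2.MB σ τ p q A' r z :=
  ⟨h.f₁, h.f₂, fun a i => (h.df a i).trans (mul_le_mul_of_nonneg_right hA hr)⟩

end

variable {n : ℕ} {q : Cst} {d : Pk n} {z : VV n} {X c₁ η : ℝ}

/-- **The points of zone II, with the fields of `PtII2`.** -/
structure Row (n : ℕ) (η X : ℝ) (q : Cst) (d : Pk n) (z : VV n) : Prop where
  al : Al (aN n) X q d z
  n1 : 1 ≤ n
  nr : H932.EP.NrC n q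
  X1 : 1 ≤ X
  E0 : 0 < d.E q z
  N0 : 0 < d.N q z
  r0 : 0 < √(d.r2 z)
  r1 : √(d.r2 z) ≤ 1 / 64
  rr : √(d.r2 z) ^ 2 = d.r2 z
  m1 : 1 ≤ d.m q z
  NE : d.N q z ≤ aN n * (d.E q z * √(d.r2 z))
  k0 : 0 < H942.Pk.kz q d z
  km : H942.Pk.kz q d z ≤ d.m q z
  kX : X * (1 + d.N q z ^ 2 / d.m q z ^ 2) ≤ H942.Pk.kz q d z
  kx : ∀ i, |d.sx.D i (H942.Pk.kz q d) z| ≤ Ck n q * (H942.Pk.kz q d z / √(d.r2 z))
  ky : ∀ i, |d.sy.D i (H942.Pk.kz q d) z| ≤ Ck n q * (H942.Pk.kz q d z / √(d.r2 z))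
  wn : (d.wn q).Ok (Bn n) z
  fb : FB0 d.sx d.sy (C1 (1 / 10 ^ 9) q d) (C2 (1 / 10 ^ 9) q d)
    ((d.wn q).c₁ (H942.Pk.kE q d)) ((d.wn q).c₂ (H942.Pk.kE q d)) (A0 n) (d.E q z) (d.N q z)
    √(d.r2 z) (H942.Pk.kz q d z) z
  fd₁ : ∀ i l, |d.sx.D i ((d.wn q).c₁ (H942.Pk.kE q d) l) z| ≤
    A1 n q * (1 + (d.N q z + H942.Pk.kz q d z) / (d.E q z * √(d.r2 z) ^ 2))
  fd₂ : ∀ i l, |d.sy.D i ((d.wn q).c₂ (H942.Pk.kE q d) l) z| ≤
    A1 n q * (1 + (d.N q z + H942.Pk.kz q d z) / (d.E q z * √(d.r2 z) ^ 2))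
  wb : R2.H870.Z2.W1 d.sx d.sy (d.W q) (A2 n) (d.E q z) (d.N q z) √(d.r2 z) z
  en₁ : |H942.Pk.kz q d z * d.sx.Λ (d.W q) z + d.sx.Γ (H942.Pk.kz q d) (d.W q) z| ≤
    η * (H942.Pk.kz q d z * d.sx.F (d.W q) z)
  en₂ : |H942.Pk.kz q d z * d.sy.Λ (d.W q) z + d.sy.Γ (H942.Pk.kz q d) (d.W q) z| ≤
    η * (H942.Pk.kz q d z * d.sy.F (d.W q) z)
  er₁ : ∀ a : VV n → ℝ, 8 * |eC d.sx ((d.wn q).c₁ (H942.Pk.kE q d)) (0 : VV n → ℝ) (d.W q) a z| +
      16 / (1 / 8) * cY d.sx ((d.wn q).c₁ (H942.Pk.kE q d)) (d.W q) a z ^ 2 ≤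
    η * (H942.Pk.kz q d z * ((∑ i, YY d.sx (d.W q) a i z ^ 2) + d.sx.F (d.W q) z * a z ^ 2))
  er₂ : ∀ a : VV n → ℝ, 8 * |eC d.sy ((d.wn q).c₂ (H942.Pk.kE q d)) (0 : VV n → ℝ) (d.W q) a z| +
      16 / (1 / 8) * cY d.sy ((d.wn q).c₂ (H942.Pk.kE q d)) (d.W q) a z ^ 2 ≤
    η * (H942.Pk.kz q d z * ((∑ i, YY d.sy (d.W q) a i z ^ 2) + d.sy.F (d.W q) z * a z ^ 2))

theorem A2_pos (n : ℕ) : 0 < A2 n := by
  have h := Bn_ge n
  have h1 := R2.H606.Z.cW_nonneg n (A := Bn n) (by linarith [h.1])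
  have h2 : 0 ≤ Bn n := by linarith [h.1]
  unfold A2 R2.H606.Z.c1W
  positivity

theorem A0_pos (n : ℕ) : 0 < A0 n := by
  have h := Bn_ge n
  have h2 : 0 < Bn n := by linarith [h.1]
  unfold A0 H983.Fl.Cz
  positivity

/-- The common constant of `fb`, `wb`, `mb`. -/
def AR (n : ℕ) : ℝ := max 1 (max (A0 n) (A2 n))

theorem AR_one (n : ℕ) : 1 ≤ AR n := le_max_left _ _

/-- `fb` with a larger constant. -/
theorem Row.fbA (h : Row n η X q d z) {A : ℝ} (hA : AR n ≤ A) : FB0 d.sx d.sy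
    (C1 (1 / 10 ^ 9) q d) (C2 (1 / 10 ^ 9) q d) ((d.wn q).c₁ (H942.Pk.kE q d))
    ((d.wn q).c₂ (H942.Pk.kE q d)) A (d.E q z) (d.N q z) √(d.r2 z) (H942.Pk.kz q d z) z :=
  FB0_mono h.fb (((le_max_left _ _).trans (le_max_right _ _)).trans hA) h.E0.le h.N0.le h.r0.le
    h.k0.le

/-- `wb` with a larger constant. -/
theorem Row.wbA (h : Row n η X q d z) {A : ℝ} (hA : AR n ≤ A) :
    R2.H870.Z2.W1 d.sx d.sy (d.W q) A (d.E q z) (d.N q z) √(d.r2 z) z :=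
  W1_mono h.wb (((le_max_right _ _).trans (le_max_right _ _)).trans hA) (A2_pos n) h.E0.le
    h.N0.le h.r0.le

/-- The threshold. -/
def Xr (n : ℕ) (X η : Cst → ℝ) (q : Cst) : ℝ :=
  max (max 1 (X q)) (max (Y1 n q / (η q * cF n)) (4 * Y2 n q / η q))

theorem Y1_nb (n : ℕ) : NB_rT (Y1 n) := fun _ => rfl

theorem Y2_nb (n : ℕ) : NB_rT (Y2 n) := fun _ => rfl

/-- Constants before `rT` are constants before `CB`. -/
theorem NB_CB_of_rT {α : Type*} {f : Cst → α} (h : NB_rT f) : NB_CB f := fun q => by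
  have h1 := h q
  have h2 := h q.b_CB
  have e : q.b_CB.b_rT = q.b_rT := rfl
  rw [← h2, e, h1]

/-- Constants before `CB` are constants before `M₀`. -/
theorem NB_M₀_of_CB {α : Type*} {f : Cst → α} (h : NB_CB f) : NB_M₀ f := fun q => by
  have h1 := h q
  have h2 := h q.b_M₀
  have e : q.b_M₀.b_CB = q.b_CB := rfl
  rw [← h2, e, h1]

theorem Xr_nb {X η : Cst → ℝ} (hX : NB_CB X) (hη : NB_CB η) : NB_CB (Xr n X η) := fun q => by
  have h1 := NB_CB_of_rT (Y1_nb n) q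
  have h2 := NB_CB_of_rT (Y2_nb n) q
  unfold Xr
  rw [h1, h2, hX q, hη q]

/-- **Zone II, the points where one of the leaves is alive.** -/
theorem row (h : PkOk q d) (η X : Cst → ℝ) (m : Zn n (aN n) (Xr n X η q) q) (hη : 0 < η q)
    (ke : Xr n X η q * (1 + d.N q z ^ 2 / d.m q z ^ 2) ≤ H942.Pk.kz q d z ∧
      H942.Pk.kz q d z ≤ d.m q z)
    (hz : Z2 q d z) : Row n (η q) (Xr n X η q) q d z := by
  have A := al h m hz
  obtain ⟨r0, r1, r2, hN, hN0⟩ := al_num h m A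
  have hc : (0 : ℝ) < 1 / 10 ^ 9 := by norm_num
  have hc1 : (1 / 10 ^ 9 : ℝ) ≤ 1 / 3 := by norm_num
  have X1 : 1 ≤ Xr n X η q := (le_max_left _ _).trans (le_max_left _ _)
  have hF := cF_pos m.n1
  have k0 : 0 < H942.Pk.kz q d z := (kz_b hc h m A).1
  have F := fb_pk hc hc1 h m (aN_b m.n1).2 A
  have V := fb_val hc hc1 h m (aN_b m.n1).2 A
  have kd := fun i => kz_D hc h m A i
  have hm : Xr n X η q ≤ d.m q z := A.mX
  have y1 : 3 * (n : ℝ) ^ 2 * A2 n * (1 + 2 * (n : ℝ) ^ 2 * Ck n q) ≤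
      η q * (cF n * d.m q z) := by
    have h1 : Y1 n q / (η q * cF n) ≤ d.m q z :=
      ((le_max_left _ _).trans (le_max_right _ _)).trans hm
    rw [div_le_iff₀ (by positivity)] at h1
    have e : Y1 n q = 3 * (n : ℝ) ^ 2 * A2 n * (1 + 2 * (n : ℝ) ^ 2 * Ck n q) := rfl
    rw [← e]
    linarith
  have y2 : 4 * Y2 n q ≤ η q * Xr n X η q := by
    have h1 : 4 * Y2 n q / η q ≤ Xr n X η q := (le_max_right _ _).trans (le_max_right _ _)
    rw [div_le_iff₀ hη] at h1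
    linarith
  have Y20 : 0 ≤ Y2 n q := by
    have := A1_nonneg m.nr
    unfold Y2
    positivity
  have y3 : 2 * Y2 n q ≤ η q * d.m q z := by
    have := mul_le_mul_of_nonneg_left hm hη.le
    linarith
  have EN := en_pk h m A k0.le (fun i => (kd i).1) (fun i => (kd i).2) hη.le y1
  have ER := fun f => er_pk (k := H942.Pk.kz q d) hc hc1 h m A le_rfl hη.le y2 ke.1 y3 f
  exact
    { al := A
      n1 := m.n1
      nr := m.nr
      X1 := X1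
      E0 := Real.exp_pos _
      N0 := hN0
      r0 := r0
      r1 := r1.trans (aN_b m.n1).2
      rr := Real.sq_sqrt A.r0.le
      m1 := X1.trans hm
      NE := hN
      k0 := k0
      km := ke.2
      kX := ke.1
      kx := fun i => (kd i).1
      ky := fun i => (kd i).2
      wn := wn_ok h m (aN_b m.n1).2 A
      fb := ⟨V.1, V.2.1, V.2.2.1, V.2.2.2.1, V.2.2.2.2⟩
      fd₁ := F.d₁
      fd₂ := F.d₂
      wb := w1_pk h m A
      en₁ := EN.1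
      en₂ := EN.2
      er₁ := fun f => (ER f).1
      er₂ := fun f => (ER f).2 }

/-- **Zone II, the points where one of the leaves is alive.** -/
theorem row_ev (hn : 1 ≤ n) (η X : Cst → ℝ) (hη : NB_CB η) (hX : NB_CB X) :
    EvC fun q => 0 < η q → ∀ d : Pk n, PkOk q d → ∀ z,
      d.ch q .z2a z ≠ 0 ∨ d.ch q .z2b z ≠ 0 → Row n (η q) (Xr n X η q) q d z := by
  have nb := Xr_nb (n := n) hX hη
  have a1 := evZn hn (aN_b hn).1 (Xr n X η) (NB_M₀_of_CB nb) fun q =>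
    (le_max_left _ _).trans (le_max_left _ _)
  have a2 := H238.Z.ke hn (Xr n X η) nb
  refine (a1.and a2).mono ?_
  rintro q ⟨m, k⟩ hp d h z hz
  exact row h η X m hp (k d h z hz) hz

end Vale.Agent.P088.R2.H606.EP
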