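import Vale.Agent.P088.R2.H606.EP.Loc
import Vale.Agent.P088.R2.H31.EP.PackL
import Vale.Agent.P088.R2.H31.EP.CstL

/-!
# P088, stage 3: the numbers of the local data exist
-/

open Set Filter
open scoped ContDiff Topology Matrix

noncomputable section

namespace Vale.Agent.P088.R2.H606.EP

open Vale.Agent.P088.LR Vale.Agent.P088.HY Vale.Agent.P088.R2.H31.EP

variable {n : ℕ}

/-- A large power. -/
theorem ev_rpow {e : ℝ} (he : 0 < e) (A : Cst → ℝ) (hA : NB_M₀ A) :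
    EvC fun q => A q ≤ q.M₀ ^ e := by
  have h : EvC fun q => A q.b_M₀ ≤ q.M₀ ^ e :=
    EvC.at_M₀ (fun q t => A q ≤ t ^ e) fun q => (tendsto_rpow_atTop he).eventually_ge_atTop _
  refine h.mono fun q hq => ?_
  rwa [hA q] at hq

/-- `M₀` is large compared with the constants before. -/
theorem ev_M₀ (A : Cst → ℝ) (hA : NB_M₀ A) : EvC fun q => A q ≤ q.M₀ := by
  have h : EvC fun q => A q.b_M₀ ≤ q.M₀ :=
    EvC.at_M₀ (fun q t => A q ≤ t) fun q => eventually_ge_atTop _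
  refine h.mono fun q hq => ?_
  rwa [hA q] at hq

/-- `R` is large compared with the constants before. -/
theorem ev_R (A : Cst → ℝ) (hA : NB_R A) : EvC fun q => A q ≤ q.R := by
  have h : EvC fun q => A q.b_R ≤ q.R :=
    EvC.at_R (fun q t => A q ≤ t) fun q => eventually_ge_atTop _
  refine h.mono fun q hq => ?_
  rwa [hA q] at hq

theorem evNm : EvC Nm := by
  have r1 : EvC fun q => 40 ≤ q.R := EvC.at_R (fun _ t => 40 ≤ t) fun _ => eventually_ge_atTop _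
  have e1 : EvC fun q => q.η ≤ 1 / 1000 :=
    EvC.at_η (fun _ t => t ≤ 1 / 1000) fun _ => sml_le (by norm_num)
  have m1 : EvC fun q => 4 ≤ q.M₀ := EvC.at_M₀ (fun _ t => 4 ≤ t) fun _ => eventually_ge_atTop _
  have m2 : EvC fun q => 2 ≤ q.M₀ ^ (3 / 50 : ℝ) := ev_rpow (by norm_num) (fun _ => 2) fun _ => rfl
  have m3 : EvC fun q => 10 / 9 ≤ q.M₀ ^ (1 / 10 : ℝ) :=
    ev_rpow (by norm_num) (fun _ => 10 / 9) fun _ => rfl
  have a1 : EvC fun q => q.aC ≤ 1 :=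
    EvC.at_aC (fun _ t => t ≤ 1) fun _ => sml_le one_pos
  have b : EvC fun q => 2 * Nb q ^ (13 / 5 : ℝ) < Real.exp (11 / 10 * q.R) := by
    have ht : Tendsto (fun t : ℝ => Real.exp (11 / 10 * t)) atTop atTop :=
      Real.tendsto_exp_atTop.comp (tendsto_id.const_mul_atTop (by norm_num))
    exact EvC.at_R (fun q t => 2 * Nb q ^ (13 / 5 : ℝ) < Real.exp (11 / 10 * t)) fun q =>
      ht.eventually_gt_atTop _
  refine (((EvC.pos.and EvC.good).and (r1.and e1)).and ((m1.and m2).and (m3.and (a1.and b)))).mono ?_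
  rintro q ⟨⟨⟨⟨⟨-, -, p3, -, p5, -⟩, -, -, -, -, p6, p7, p8⟩, g⟩, r1, e1⟩, ⟨m1, m2⟩, m3, a1, b⟩
  exact ⟨p8, p7, p6, e1, m1, m2, m3, p5, a1, p3, g.1.2.1, b, r1⟩

theorem evLm (hn : 1 ≤ n) : EvC (Lm n) := by
  have s1 : EvC fun q => q.σ ≤ 1 / 5000 :=
    EvC.at_σ (fun _ t => t ≤ 1 / 5000) fun _ => sml_le (by norm_num)
  have r1 : EvC fun q => 100 * (n : ℝ) ≤ q.R := ev_R (fun _ => 100 * (n : ℝ)) fun _ => rfl
  have r2 : EvC fun q => 8 * cSt ≤ q.R := ev_R (fun _ => 8 * cSt) fun _ => rfl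
  have e1 : EvC fun q => q.ε ≤ 1 := EvC.at_ε (fun _ t => t ≤ 1) fun _ => sml_le one_pos
  have e2 : EvC fun q => q.ε ≤ eI n :=
    EvC.at_ε (fun _ t => t ≤ eI n) fun _ => sml_le (cI_spec n).1
  have hn0 : (0 : ℝ) < n := by exact_mod_cast hn
  have hc := cT_ge n
  have e3 : EvC fun q => 8 * (n : ℝ) * (cT n * q.ε) ≤ 1 :=
    EvC.at_ε (fun _ t => 8 * (n : ℝ) * (cT n * t) ≤ 1) fun _ =>
      (sml_le (a := 1 / (8 * n * cT n)) (by positivity)).mono fun t ht => by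
        rw [le_div_iff₀ (by positivity)] at ht
        linarith
  have c1 : EvC fun q => q.c₀ ≤ 1 / 8 :=
    EvC.at_c₀ (fun _ t => t ≤ 1 / 8) fun _ => sml_le (by norm_num)
  have x1 : EvC fun q => 4 * Real.exp 1 / q.c' ≤ q.M₀ := ev_M₀ (fun q => 4 * Real.exp 1 / q.c')
    fun _ => rfl
  refine (((EvC.pos.and evNm).and (s1.and r1)).and ((r2.and e1).and ((e2.and e3).and
    (c1.and x1)))).mono ?_
  rintro q ⟨⟨⟨⟨⟨-, p2, p3, -, p5, p9, -⟩, ⟨-, t2, t3, -⟩, -, -, t5, -, -, -⟩, nm⟩, s1, r1⟩,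
    ⟨r2, e1⟩, ⟨e2, e3⟩, c1, x1⟩
  refine { toNm := nm, n1 := hn, σ0 := t2, σ1 := s1, eg0 := p2, Rn := r1, Rc := r2, ε0 := t5.le,
           ε1 := e1, εI := e2, εT := e3, c0 := p9, c1 := c1, r1 := ?_ }
  rw [div_le_iff₀ t3] at x1
  unfold Cst.r₁
  have h1 : Real.exp (-1) * Real.exp 1 = 1 := by rw [← Real.exp_add]; simp
  have h2 := Real.exp_pos (-1)
  have h3 := mul_le_mul_of_nonneg_right x1 h2.le
  have h4 : 4 * Real.exp 1 * Real.exp (-1) = 4 := by linear_combination 4 * h1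
  rw [h4] at h3
  linarith

end Vale.Agent.P088.R2.H606.EP
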