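import Vale.Agent.P088.R2.H606.EP.Al
import Vale.Agent.P088.R2.H86.Z.Wnp
import Vale.Agent.P088.R2.H983.Fl.Zj

/-!
# P088, stage 3, zone II: helper983's `Wn.Ok` on the package
-/

open Set Filter
open scoped ContDiff Topology Matrix

noncomputable section

namespace Vale.Agent.P088.R2.H606.EP

open Vale.Agent.P088.LR Vale.Agent.P088.HY Vale.Agent.P088.R2.H464.Cu Vale.Agent.P088.R2.H31.EP
open Vale.Agent.P088.R2.H932.EP (Lb u1)
open Vale.Agent.P088.R2.H961.GW (df_of sm_pd Sm)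
open Vale.Agent.P088.R2.H606.Z (D2)
open Vale.Agent.P088.R2.H983.Fl (Wn gl lam bb aa' Fr1)

variable {n : ℕ} {q : Cst} {d : Pk n} {z : VV n} {a X : ℝ}

/-- The bound of `μc''`. -/
def muB : ℝ := |muC 1| / 8 + 1

theorem muB_ge : 1 ≤ muB := by
  have := abs_nonneg (muC 1)
  unfold muB; linarith

/-- The bound of the derivatives of `u`. -/
def Au (n : ℕ) : ℝ := 2 * n * 2 * (1 + 1 / 4) + 2 * (n : ℝ) ^ 2 * (1 * (1 + 1 / 4) + muB * 2 ^ 2)

theorem Au_nonneg (n : ℕ) : 0 ≤ Au n := by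
  have := muB_ge
  unfold Au; positivity

/-- The constant of `Wn.Ok`. -/
def Bn (n : ℕ) : ℝ := 112 + 2 * n + Au n + muB

theorem Bn_ge (n : ℕ) : 112 ≤ Bn n ∧ (n : ℝ) ≤ Bn n ∧ 2 * (n : ℝ) ≤ Bn n ∧ Au n ≤ Bn n ∧
    muB ≤ Bn n := by
  have h1 := Au_nonneg n
  have h2 := muB_ge
  have h3 : (0 : ℝ) ≤ n := Nat.cast_nonneg n
  unfold Bn
  refine ⟨?_, ?_, ?_, ?_, ?_⟩ <;> linarith

theorem D2.congr {U : Set (VV n)} {A : ℝ} {u u' : VV n → ℝ} (h : D2 U A u) (e : EqOn u' u U) :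
    D2 U A u' where
  op := h.op
  sm := h.sm.congr e
  d1 z hz w := by
    have : u' =ᶠ[𝓝 z] u := e.eventuallyEq_of_mem (h.op.mem_nhds hz)
    rw [this.fderiv_eq]
    exact h.d1 z hz w
  d2 z hz w w' := by
    have h1 : (fun z => fderiv ℝ u' z w) =ᶠ[𝓝 z] fun z => fderiv ℝ u z w := by
      filter_upwards [h.op.mem_nhds hz] with y hy
      rw [(e.eventuallyEq_of_mem (h.op.mem_nhds hy)).fderiv_eq]
    rw [h1.fderiv_eq]
    exact h.d2 z hz w w'

theorem norm_fd {E : Type*} [NormedAddCommGroup E] [NormedSpace ℝ E] {f : E → ℝ} {x : E} {c : ℝ}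
    (hc : 0 ≤ c) (h : ∀ w, |fderiv ℝ f x w| ≤ c * ‖w‖) : ‖fderiv ℝ f x‖ ≤ c :=
  ContinuousLinearMap.opNorm_le_bound _ hc fun w => by rw [Real.norm_eq_abs]; exact h w

theorem norm_fd_pd {f : V n → ℝ} {x : V n} {c : ℝ} (hc : 0 ≤ c) (h : ∀ k, |pd k f x| ≤ c) :
    ‖fderiv ℝ f x‖ ≤ n * c :=
  norm_fd (by positivity) fun w => (fd_le h w).trans (le_of_eq (by ring))

variable (h : PkOk q d) (m : Lm n q) (L : Loc q d z)
include h m L

/-- **The derivatives of `u`.** -/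
theorem d2_u : D2 (Uz (gi d.s₁) z) (Au n) (d.u q) := by
  have hR : 0 < q.R := by linarith [m.R1]
  have hs : q.σ * q.R⁻¹ ≤ 1 := by
    have h1 : q.R⁻¹ ≤ 1 := inv_le_one_of_one_le₀ m.R1
    have := m.σ1
    have := m.σ0
    have : q.σ * q.R⁻¹ ≤ q.σ * 1 := mul_le_mul_of_nonneg_left h1 m.σ0.le
    linarith
  have lb : Lb (Ob z) 2 1 d.l :=
    ⟨L.lb.sm, L.lb.d1, fun x hx k j => (L.lb.d2 x hx k j).trans hs⟩
  have b := fun s => muc_b h m.Rc s
  have mn : Mn univ (1 / 4) muB (d.μc q) :=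
    ⟨(b 0).1, fun t _ => (b t).2.2.1, fun t _ => (b t).2.2.2⟩
  have h1 := d2_u1 (Ob_open z) lb L.uo (fun w hw => hw.1) (fun w hw => hw.2.1)
    (fun w hw => mid_mem (Ob_convex z) hw.1 hw.2.1) (T := univ) (fun _ _ => mem_univ _) mn
    (by norm_num) (by norm_num) (by norm_num) (by linarith [muB_ge])
  exact D2.congr h1 L.eu

omit h in
/-- The derivatives of the level function. -/
theorem pd_l {x : V n} (hx : x ∈ Ob z) (k : Fin n) : pd k d.l x = wv n q.σ q.R k x := by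
  have hR : q.R ≠ 0 := by linarith [m.R1]
  have h1 : d.l =ᶠ[𝓝 x] lv n q.σ q.R d.kap d.Gs :=
    L.el.eventuallyEq_of_mem ((Ob_open z).mem_nhds hx)
  have h2 : pd k d.l x = pd k (lv n q.σ q.R d.kap d.Gs) x := by
    unfold pd
    rw [h1.fderiv_eq]
  rw [h2, lv_pd hR]

omit h in
/-- `|∇l|²` at the midpoint. -/
theorem gl_sq : 99 / 100 ≤ dt (gl d.l (mid z)) (gl d.l (mid z)) ∧
    dt (gl d.l (mid z)) (gl d.l (mid z)) ≤ 101 / 100 := by
  have hR : 0 < q.R := by linarith [m.R1]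
  have e : dt (gl d.l (mid z)) (gl d.l (mid z)) =
      1 + 2 * q.σ * T4.gy n q.σ (q.R⁻¹ • mid z) := by
    rw [← wv_sq m.n1]
    unfold dt gl
    exact Finset.sum_congr rfl fun k _ => by rw [pd_l m L (mid_Ob z)]; ring
  have hl := L.el (mid_Ob z)
  rw [e, gy_lv (kap := d.kap) (Gs := d.Gs) hR.ne', ← hl]
  have e0 : d.l₀ q = Real.log (d.kap / q.R) - q.R * d.Gs := rfl
  rw [← e0]
  have h1 : -(1 / 4) ≤ (d.l (mid z) - d.l₀ q) / q.R := by
    rw [le_div_iff₀ hR]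
    have := L.lo
    linarith
  have h2 : (d.l (mid z) - d.l₀ q) / q.R ≤ 236 / 100 := by
    rw [div_le_iff₀ hR]
    have := L.hi
    linarith
  have := m.σ0
  have := m.σ1
  constructor <;> nlinarith

/-- `λ²` at the midpoint. -/
theorem lam_b : 4 / 5 ≤ bf (d.s₁ (mid z)) (gl d.l (mid z)) (gl d.l (mid z)) ∧
    bf (d.s₁ (mid z)) (gl d.l (mid z)) (gl d.l (mid z)) ≤ 6 / 5 := by
  obtain ⟨h1, h2⟩ := gl_sq m L
  obtain ⟨e1, -⟩ := eT_le h m
  obtain ⟨n1, -, -⟩ := ten h m univ isOpen_univ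
  have h3 := bf_close (G := d.s₁ (mid z)) (δ := cT n * q.ε)
    (fun i j => n1.b0 (mid z) (mem_univ _) i j) (gl d.l (mid z))
  have e2 : ∑ i, gl d.l (mid z) i ^ 2 = dt (gl d.l (mid z)) (gl d.l (mid z)) := by
    unfold dt
    exact Finset.sum_congr rfl fun i _ => by ring
  rw [e2] at h3
  obtain ⟨h4, h5⟩ := abs_le.1 h3
  have h6 : (n : ℝ) * (cT n * q.ε) * dt (gl d.l (mid z)) (gl d.l (mid z)) ≤ 1 / 8 * (101 / 100) :=
    mul_le_mul e1 h2 (by linarith) (by norm_num)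
  constructor <;> linarith

/-- `λ` at the midpoint. -/
theorem lam_le : 4 / 5 ≤ lam d.s₁ d.l (mid z) ∧ lam d.s₁ d.l (mid z) ≤ 6 / 5 := by
  obtain ⟨h1, h2⟩ := lam_b h m L
  unfold lam
  constructor
  · rw [Real.le_sqrt (by norm_num) (by linarith)]
    linarith
  · rw [Real.sqrt_le_left (by norm_num)]
    linarith

/-- `a` at the midpoint. -/
theorem a_le : 1 / 2 ≤ (d.wn q).a z ∧ (d.wn q).a z ≤ 3 / 2 := by
  obtain ⟨h1, h2⟩ := lam_le h m L
  obtain ⟨-, -, h3, -⟩ := muc_b h m.Rc (d.l (mid z))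
  obtain ⟨h4, h5⟩ := abs_le.1 h3
  have e : (d.wn q).a z = lam d.s₁ d.l (mid z) * (1 + deriv (d.μc q) (d.l (mid z))) := rfl
  rw [e]
  constructor <;> nlinarith

omit L in
/-- The tensors have frames at the midpoint. -/
theorem fr1 : ∃ F Ψ, Fr1 ((d.wn q).s (mid z)) ((d.wn q).g (mid z)) F Ψ := by
  obtain ⟨n1, -, -⟩ := ten h m univ isOpen_univ
  have hR : 0 < q.R := by linarith [m.R1]
  refine Fr1.exists (c := 1 / 2) (fun i j => n1.sy _ i j) (fun v => ?_) ?_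
  · exact form_ge (by linarith [(eT_le h m).1]) (n1.b0 (mid z) (mem_univ _)) v
  · exact ((rg_ng h.rg (by norm_num) m.ε0 hR isOpen_univ m.εI m.ε1).2 (mid z) (mem_univ _)).1

omit h m L in
/-- The numbers of a point of zone II. -/
theorem al_num (h : PkOk q d) (m : Zn n a X q) (A : Al a X q d z) :
    0 < √(d.r2 z) ∧ √(d.r2 z) ≤ a ∧ √(d.r2 z) ^ 2 = d.r2 z ∧
      d.N q z ≤ a * (d.E q z * √(d.r2 z)) ∧ 0 < d.N q z := by
  have hN : 0 < d.N q z := N_pos h m.toNm _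
  have hE : 0 < d.E q z := Real.exp_pos _
  have h1 : √(d.r2 z) ^ 2 = d.r2 z := Real.sq_sqrt A.r0.le
  have h2 : 0 < √(d.r2 z) := Real.sqrt_pos.2 A.r0
  have h3 : √(d.r2 z) ≤ 2 * q.c₀ := by
    rw [Real.sqrt_le_left (by linarith [m.c0])]
    have := A.r4
    linarith
  refine ⟨h2, h3.trans m.c2, h1, ?_, hN⟩
  refine (abs_le_of_sq_le_sq' ?_ (by have := m.ap; positivity)).2
  refine A.NE.trans (le_of_eq ?_)
  unfold Pk.m
  rw [mul_pow, mul_pow, h1]
  ring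

omit h m L in
theorem nr_arith {r av ν G S1 : ℝ} (r0 : 0 < r) (ha : a ≤ 1 / 64) (r1 : r ≤ a) (hv0 : 0 ≤ av)
    (hv : av ≤ 3 / 2) (hν : ν ≤ a * r) (hG : G ≤ 8 * r ^ 2) (hS : 1 / 2 ≤ S1) :
    2 * (av * (ν + G)) ≤ 2 * S1 * r := by
  have h1 : r ^ 2 ≤ a * r := by rw [pow_two]; exact mul_le_mul_of_nonneg_right r1 r0.le
  have h0 : 0 ≤ a * r := mul_nonneg (by linarith) r0.le
  have h2 : ν + G ≤ 9 * (a * r) := by linarith
  have h3 : av * (ν + G) ≤ 3 / 2 * (9 * (a * r)) :=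
    (mul_le_mul_of_nonneg_left h2 hv0).trans (mul_le_mul_of_nonneg_right hv (by linarith))
  have h4 : a * r ≤ 1 / 64 * r := mul_le_mul_of_nonneg_right ha r0.le
  have h5 : 1 / 2 * r ≤ S1 * r := mul_le_mul_of_nonneg_right hS r0.le
  linarith

omit h m L in
/-- **helper983's structure on the package.** -/
theorem wn_ok (h : PkOk q d) (m : Zn n a X q) (ha : a ≤ 1 / 64) (A : Al a X q d z) :
    (d.wn q).Ok (Bn n) z := by
  obtain ⟨B1, B2, B3, B4, B5⟩ := Bn_ge n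
  obtain ⟨r0, r1, r2, hN, hN0⟩ := al_num h m A
  have L := A.lo
  have hR : 0 < q.R := by linarith [m.R1]
  have hn : (1 : ℝ) ≤ n := by exact_mod_cast m.n1
  have hE : 0 < d.E q z := Real.exp_pos _
  obtain ⟨n1, n2, ng⟩ := ten h m.toLm univ isOpen_univ
  obtain ⟨eT1, eT2⟩ := eT_le h m.toLm
  have hc := cT_ge n
  have eT0 : 0 ≤ cT n * q.ε := mul_nonneg (by linarith) m.ε0
  have hRi : q.R⁻¹ ≤ 1 := inv_le_one_of_one_le₀ m.R1
  have hRi0 : 0 ≤ q.R⁻¹ := inv_nonneg.2 hR.le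
  have dT : cT n * q.ε * q.R⁻¹ ≤ 1 := by
    have := mul_le_mul eT2 hRi hRi0 (by norm_num)
    linarith
  have dT0 : 0 ≤ cT n * q.ε * q.R⁻¹ := mul_nonneg eT0 hRi0
  have hs : q.σ * q.R⁻¹ ≤ 1 := by
    have := m.σ1
    have := mul_le_mul_of_nonneg_left hRi m.σ0.le
    linarith
  have hs0 : 0 ≤ q.σ * q.R⁻¹ := mul_nonneg m.σ0.le hRi0
  have nfd : ∀ {f : V n → ℝ} {c : ℝ}, 0 ≤ c → c ≤ 2 → (∀ k, |pd k f (mid z)| ≤ c) →
      ‖fderiv ℝ f (mid z)‖ ≤ Bn n := fun {f c} h0 h1 h2 => by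
    refine (norm_fd_pd h0 h2).trans ?_
    have : (n : ℝ) * c ≤ n * 2 := mul_le_mul_of_nonneg_left h1 (by linarith)
    linarith
  have hl := L.lb
  have b := muc_b h m.Rc (d.l (mid z))
  have sμ : ContDiff ℝ ∞ (deriv (d.μc q)) := (contDiff_infty_iff_deriv.1 b.1).2
  have u2 := d2_u h m.toLm L
  have hu : DifferentiableAt ℝ (d.u q) z := u2.sm.diff u2.op L.uz
  have K0 := K_pos h (d.u q z)
  have K1 := K_le h m.toNm A.ta
  have p1 : d.r2 z < 1 := by
    have := A.r4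
    have := m.c1
    have := m.c0
    nlinarith
  have pn := pn_ok m.eg0 A.r0.le p1
  have la := lam_b h m.toLm L
  have ab := a_le h m.toLm L
  have ap := m.ap
  obtain ⟨F, Ψ, fr⟩ := fr1 h m.toLm (z := z)
  have hr2 : (d.wn q).r2 z = d.r2 z := rfl
  have hdt := (rq_bd ng (by linarith : (n : ℝ) * (cT n * q.ε) ≤ 1 / 2) (mem_univ (mid z))).1
  have hS : (d.wn q).S ((d.wn q).r2 z) = prS q.e₁ (d.r2 z) := rfl
  have hν : (d.wn q).nu z ≤ a * √(d.r2 z) := by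
    have e : (d.wn q).nu z = d.N q z * (d.E q z)⁻¹ := rfl
    rw [e, ← div_eq_mul_inv, div_le_iff₀ hE]
    linarith
  refine
    { B8 := by linarith
      nB := B2
      dg := fun i j => df_of isOpen_univ (ng.sm i j) (mem_univ _)
      g0 := fun i j => (ng.le2 (by linarith) (mem_univ _) i j).trans (by linarith)
      g1 := fun i j => nfd dT0 (by linarith) fun k => ng.b1 _ (mem_univ _) k i j
      ds := fun i j => df_of isOpen_univ (n1.sm i j) (mem_univ _)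
      s0 := fun i j => (n1.le2 (by linarith) (mem_univ _) i j).trans (by linarith)
      s1 := fun i j => nfd dT0 (by linarith) fun k => n1.b1 _ (mem_univ _) k i j
      dl := df_of (Ob_open z) hl.sm (mid_Ob z)
      l1 := nfd (by norm_num) le_rfl fun k => hl.d1 _ (mid_Ob z) k
      dpl := fun j => df_of (Ob_open z) (sm_pd (Ob_open z) hl.sm j) (mid_Ob z)
      pl0 := fun j => (hl.d1 _ (mid_Ob z) j).trans (by linarith)
      pl1 := fun j => nfd hs0 (by linarith) fun k => hl.d2 _ (mid_Ob z) k j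
      la := ?_
      du := hu
      u1 := (norm_fd (Au_nonneg n) fun w => u2.d1 z L.uz w).trans B4
      dΦ := ?_
      Φ0 := hN0.le
      Φb := ?_
      dμ := ((sμ.differentiable (by simp)) _).hasDerivAt
      μ0 := b.2.2.1.trans (by norm_num)
      μb := b.2.2.2.trans B5
      dS := prS_d1 m.eg0 _
      dS₁ := prS_d2 m.eg0 _
      dS₂ := prS_d3 m.eg0 _
      S0 := ?_
      Sb := ?_
      S₁0 := ?_
      S₁b := pn.b1.trans (by linarith)
      S₂0 := pn.l2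
      S₂b := pn.h2.trans (by linarith)
      S₃b := pn.h3.trans (by linarith)
      r0 := A.r0
      r1 := p1.le
      df := fun i => ?_
      cs := H983.Fl.b_sq fr
      sm := ?_
      nr := ?_
      n1 := ?_ }
  · have : (d.wn q).s = d.s₁ := rfl
    have h3 : 4 / 5 ≤ bf ((d.wn q).s (mid z)) (gl (d.wn q).l (mid z)) (gl (d.wn q).l (mid z)) := la.1
    nlinarith
  · exact ((h.Φ's.differentiable (by simp)) _).hasDerivAt
  · have e : |(d.wn q).Φ₂ ((d.wn q).u z)| = deriv (deriv d.Φ) (d.u q z) := abs_of_pos K0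
    rw [e]
    refine K1.trans ?_
    exact mul_le_mul_of_nonneg_right (by linarith) hN0.le
  · rw [hS]
    linarith [pn.lo, A.r0]
  · rw [hS, hr2]
    refine pn.hi.trans ?_
    exact mul_le_mul_of_nonneg_right (by linarith) A.r0.le
  · have e : (d.wn q).S₁ ((d.wn q).r2 z) = prS₁ q.e₁ (d.r2 z) := rfl
    rw [e]
    linarith [pn.l1]
  · rw [hr2]
    have h3 : dt (dif z) (dif z) ≤ (2 * √(d.r2 z)) ^ 2 := by
      have e : d.r2 z = 2 * rq (gi d.s₁) z := rfl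
      rw [mul_pow, r2, e]
      linarith
    have h4 := dt_ge (dif z) i
    have h5 : |dif z i| ≤ 2 * √(d.r2 z) := abs_le_of_sq_le_sq (h4.trans h3) (by positivity)
    refine h5.trans (mul_le_mul_of_nonneg_right (by linarith) r0.le)
  · rw [hr2]
    have := mul_le_mul ab.2 r1 r0.le (by norm_num)
    linarith
  · exact nr_arith r0 ha r1 (by linarith [ab.1]) ab.2 hν (r2.symm ▸ pn.hi) pn.l1
  · rw [hr2]
    have s5 : a * √(d.r2 z) ≤ 1 / 64 * √(d.r2 z) := mul_le_mul_of_nonneg_right ha r0.le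
    linarith

end Vale.Agent.P088.R2.H606.EP
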