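import Vale.Agent.P088.R2.H606.EP.Kd
import Vale.Agent.P088.R2.H606.EP.Wok

/-!
# P088, stage 3, zone II: the bounds of the fields on the package
-/

open Set Filter
open scoped ContDiff Topology Matrix

noncomputable section

namespace Vale.Agent.P088.R2.H606.EP

open Vale.Agent.P088.LR Vale.Agent.P088.HY Vale.Agent.P088.R2.H464.Cu Vale.Agent.P088.R2.H31.EP
open Vale.Agent.P088.R2.H983.Fl (P1 Un un_sx un_sy Wn Cz)
open Vale.Agent.P088.R2.H961.GW (Sl slx sly)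
open Vale.Agent.P088.R2.H870.Z2 (FB)

variable {n : ℕ} {q : Cst} {d : Pk n} {z : VV n} {a X c₁ : ℝ}

/-- `Wn.Ok` with a larger constant. -/
theorem okMono {w : Wn n} {B B' : ℝ} (h : w.Ok B z) (hB : B ≤ B') : w.Ok B' z := by
  have B8 := h.B8
  have hr := h.r0
  have hs := h.rp.le
  have hla : 0 ≤ bf (w.s (mid z)) (H983.Fl.gl w.l (mid z)) (H983.Fl.gl w.l (mid z)) := by
    by_contra hc
    have := mul_nonpos_of_nonneg_of_nonpos (by linarith : (0 : ℝ) ≤ B) (not_le.1 hc).le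
    have := h.la
    linarith
  exact
    { h with
      B8 := by linarith
      nB := by linarith [h.nB]
      g0 := fun i j => (h.g0 i j).trans hB
      g1 := fun i j => (h.g1 i j).trans hB
      s0 := fun i j => (h.s0 i j).trans hB
      s1 := fun i j => (h.s1 i j).trans hB
      l1 := h.l1.trans hB
      pl0 := fun j => (h.pl0 j).trans hB
      pl1 := fun j => (h.pl1 j).trans hB
      la := h.la.trans (mul_le_mul_of_nonneg_right hB hla)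
      u1 := h.u1.trans hB
      Φb := h.Φb.trans (mul_le_mul_of_nonneg_right hB h.Φ0)
      μb := h.μb.trans hB
      Sb := h.Sb.trans (mul_le_mul_of_nonneg_right hB hr.le)
      S₁b := h.S₁b.trans hB
      S₂b := h.S₂b.trans hB
      S₃b := h.S₃b.trans hB
      df := fun i => (h.df i).trans (mul_le_mul_of_nonneg_right hB hs) }

/-- `κ / E` of the fields. -/
def kE (c₁ : ℝ) (d : Pk n) (q : Cst) (z : VV n) : ℝ :=
  16 * kz c₁ d q z / (Real.exp (d.u q z) * (d.wn q).a z ^ 2)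

/-- The constant of `kE`. -/
def Bk (n : ℕ) (q : Cst) : ℝ := Bn n + Ck n q

theorem Bk_ge (nr : H932.EP.NrC n q) : Bn n ≤ Bk n q ∧ Ck n q ≤ Bk n q := by
  have h1 := Ck_nonneg nr
  obtain ⟨h2, -⟩ := Bn_ge n
  unfold Bk
  constructor <;> linarith

/-- The class of `kE`. -/
theorem kE_p1 {κ : Type*} {σ : Sl (VV n) κ} (hσ : Un σ) (hc : 0 < c₁) (h : PkOk q d)
    (m : Zn n a X q) (ha : a ≤ 1 / 64) (A : Al a X q d z)
    (hD : ∀ i, |σ.D i (kz c₁ d q) z| ≤ Ck n q * (kz c₁ d q z / √(d.r2 z))) :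
    P1 σ (√(d.r2 z)) z (Bk n q) (kE c₁ d q) 39 (kz c₁ d q z / Real.exp (d.u q z)) := by
  obtain ⟨b1, b2⟩ := Bk_ge m.nr
  obtain ⟨b3, -⟩ := Bn_ge n
  have W := okMono (wn_ok h m ha A) b1
  have B2 := W.B2
  have r0 : 0 < √(d.r2 z) := Real.sqrt_pos.2 A.r0
  have rl : √(d.r2 z) ≤ 1 := W.rl
  obtain ⟨k0, -⟩ := kz_b hc h m A
  obtain ⟨a1, a2⟩ := a_le h m.toLm A.lo
  have pk : P1 σ (√(d.r2 z)) z (Bk n q) (kz c₁ d q) 1 (kz c₁ d q z) := by
    refine ⟨(kz_jb hc h m A).sm.differentiableAt (by norm_num), ?_, fun i => ?_⟩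
    · rw [abs_of_pos k0, pow_one]
      nlinarith
    · refine (mul_le_mul_of_nonneg_right (hD i) r0.le).trans ?_
      rw [pow_one]
      calc Ck n q * (kz c₁ d q z / √(d.r2 z)) * √(d.r2 z) = Ck n q * kz c₁ d q z := by
            field_simp
        _ ≤ _ := mul_le_mul_of_nonneg_right b2 k0.le
  have p1 := P1.kapE B2 r0.le rl hσ pk W.du W.u1
  have pa2 : P1 σ (√(d.r2 z)) z (Bk n q) (fun z => (d.wn q).a z ^ 2) 25 1 :=
    ((W.aA hσ r0.le rl).sq B2 r0.le).size B2 (by norm_num)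
  have pai : P1 σ (√(d.r2 z)) z (Bk n q) (fun z => ((d.wn q).a z ^ 2)⁻¹) 33 1 := by
    have := pa2.inv (n := 4) B2 one_pos (by
      rw [abs_of_pos (by positivity)]
      have h1 : (1 : ℝ) ≤ ((Bk n q) ^ 2 * (d.wn q).a z) ^ 2 := one_le_pow₀ W.a0.2
      calc (1 : ℝ) ≤ ((Bk n q) ^ 2 * (d.wn q).a z) ^ 2 := h1
        _ = _ := by ring) r0.le
    simpa using this
  have p3 := ((p1.mul pai B2 r0.le).cmul (c := 16) (n := 2) B2 (by
    rw [abs_of_pos (by norm_num)]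
    nlinarith)).size B2 (y := kz c₁ d q z / Real.exp (d.u q z))
    (by rw [mul_one]; exact le_rfl)
  refine (p3.up B2 (by norm_num)).congr (Eventually.of_forall fun w => ?_)
  have e : (d.wn q).u = d.u q := rfl
  unfold kE
  rw [e, div_eq_mul_inv, mul_inv]
  ring

/-- The inverse tensors. -/
theorem gi12 (h : PkOk q d) (m : Lm n q) (x : V n) :
    (gi d.s₁ x * d.s₁ x = 1 ∧ d.s₁ x * gi d.s₁ x = 1) ∧
      (gi d.s₂ x * d.s₂ x = 1 ∧ d.s₂ x * gi d.s₂ x = 1) ∧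
      (∀ i j, |gi d.s₁ x i j| ≤ 2) ∧ ∀ i j, |gi d.s₂ x i j| ≤ 2 := by
  have hR : 0 < q.R := by linarith [m.R1]
  obtain ⟨c0, c1, H⟩ := cI_spec n
  have hRi : 0 ≤ q.R⁻¹ := inv_nonneg.2 hR.le
  have n1 := nr_of (O := univ) h.rg.sm₁ h.rg.sy₁ fun i j k hk x =>
    h.rg.cl₁ i j k (hk.trans (by norm_num)) x
  have n2 := nr_of (O := univ) h.rg.sm₂ h.rg.sy₂ fun i j k hk x =>
    h.rg.cl₂ i j k (hk.trans (by norm_num)) x
  have he : 0 ≤ q.ε * q.R⁻¹ := mul_nonneg m.ε0 hRi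
  have he2 : 0 ≤ q.ε * q.R⁻¹ ^ 2 := mul_nonneg m.ε0 (by positivity)
  obtain ⟨H1, H2⟩ := H univ _ _ _ d.s₁ isOpen_univ n1 m.ε0 m.εI he he2
  obtain ⟨H3, H4⟩ := H univ _ _ _ d.s₂ isOpen_univ n2 m.ε0 m.εI he he2
  have e1 : cI n * q.ε ≤ 1 := by
    have h1 := (eT_le h m).2
    have e : cT n * q.ε = 2 * (cI n * q.ε) := by unfold cT; ring
    have : 0 ≤ cI n * q.ε := mul_nonneg (by linarith) m.ε0
    linarith
  exact ⟨H2 x (mem_univ _), H4 x (mem_univ _), fun i j => H1.le2 e1 (mem_univ _) i j,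
    fun i j => H3.le2 e1 (mem_univ _) i j⟩

/-- The difference of two inverses. -/
theorem inv_sub {M N Mi Ni : Matrix (Fin n) (Fin n) ℝ} (h1 : Mi * M = 1) (h2 : N * Ni = 1)
    {δ : ℝ} (hd : ∀ i j, |N i j - M i j| ≤ δ) (b1 : ∀ i j, |Mi i j| ≤ 2) (b2 : ∀ i j, |Ni i j| ≤ 2)
    (i j : Fin n) : |Mi i j - Ni i j| ≤ 4 * (n : ℝ) ^ 2 * δ := by
  have e : Mi - Ni = Mi * (N - M) * Ni := by
    rw [mul_sub, sub_mul, h1, one_mul, mul_assoc, h2, mul_one]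
  have e1 : Mi i j - Ni i j = ∑ k, ∑ l, Mi i l * (N l k - M l k) * Ni k j := by
    have := congrFun (congrFun e i) j
    rw [Matrix.sub_apply] at this
    rw [this, Matrix.mul_apply]
    refine Finset.sum_congr rfl fun k _ => ?_
    rw [Matrix.mul_apply, Finset.sum_mul]
    exact Finset.sum_congr rfl fun l _ => by rw [Matrix.sub_apply]
  have hδ : 0 ≤ δ := (abs_nonneg _).trans (hd i j)
  rw [e1]
  refine (sum_le2 (c := 2 * δ * 2) fun k l => ?_).trans (le_of_eq (by ring))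
  rw [abs_mul, abs_mul]
  exact mul_le_mul (mul_le_mul (b1 i l) (hd l k) (abs_nonneg _) (by norm_num)) (b2 k j)
    (abs_nonneg _) (by positivity)

/-- `r ≥ e^(-l - 1)`. -/
theorem r_ge (m : Zn n a X q) (A : Al a X q d z) :
    Real.exp (-(d.l (mid z)) - 1) ≤ √(d.r2 z) := by
  have hE : 0 < d.E q z := Real.exp_pos _
  have h1 : 1 ≤ d.E q z * d.r2 z := m.X0.trans A.mX
  have h2 : Real.exp (-(d.u q z)) ≤ d.r2 z := by
    rw [Real.exp_neg, inv_le_iff_one_le_mul₀ (Real.exp_pos _), mul_comm]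
    exact h1
  have h3 := (abs_le.1 A.lo.um).2
  rw [Real.le_sqrt' (Real.exp_pos _)]
  refine le_trans ?_ h2
  rw [pow_two, ← Real.exp_add, Real.exp_le_exp]
  linarith

/-- **The difference of the inverse tensors.** -/
theorem gi_dif (h : PkOk q d) (m : Zn n a X q) (A : Al a X q d z) (i j : Fin n) :
    |gi d.s₁ z.1 i j - gi d.s₂ z.2 i j| ≤ Bn n * √(d.r2 z) := by
  have L := A.lo
  have hR : 0 < q.R := by linarith [m.R1]
  have hn : (1 : ℝ) ≤ n := by exact_mod_cast m.n1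
  obtain ⟨-, -, ng⟩ := ten h m.toLm univ isOpen_univ
  obtain ⟨eT1, eT2⟩ := eT_le h m.toLm
  have r0 : 0 < √(d.r2 z) := Real.sqrt_pos.2 A.r0
  have hRi : q.R⁻¹ ≤ 1 := inv_le_one_of_one_le₀ m.R1
  have hRi0 : 0 ≤ q.R⁻¹ := inv_nonneg.2 hR.le
  have hc := cT_ge n
  have eT0 : 0 ≤ cT n * q.ε := mul_nonneg (by linarith) m.ε0
  have dT0 : 0 ≤ cT n * q.ε * q.R⁻¹ := mul_nonneg eT0 hRi0
  -- the norm of `q`
  have hq : ‖dif z‖ ≤ 2 * √(d.r2 z) := by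
    have hdt := (rq_bd ng (by linarith : (n : ℝ) * (cT n * q.ε) ≤ 1 / 2) (mem_univ (mid z))).1
    have h2 := H606.Z.nsq_le_dt m.n1 (dif z)
    refine abs_le_of_sq_le_sq' ?_ (by positivity) |>.2
    have e : d.r2 z = 2 * rq (gi d.s₁) z := rfl
    rw [mul_pow, Real.sq_sqrt A.r0.le, e]
    linarith
  -- the first difference
  have e1 : |gi d.s₁ z.1 i j - gi d.s₁ z.2 i j| ≤ 1 / 4 * √(d.r2 z) := by
    have h1 := ng.mv isOpen_univ convex_univ dT0 (mem_univ z.1) (mem_univ z.2) i j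
    have h2 : ‖z.1 - z.2‖ = ‖dif z‖ := rfl
    rw [h2] at h1
    have h3 : (n : ℝ) * (cT n * q.ε * q.R⁻¹) ≤ 1 / 8 := by
      have : n * (cT n * q.ε) * q.R⁻¹ ≤ 1 / 8 * 1 := mul_le_mul eT1 hRi hRi0 (by norm_num)
      linarith
    have h4 := mul_le_mul h3 hq (norm_nonneg _) (by norm_num)
    linarith
  -- the second difference
  have e2 : |gi d.s₁ z.2 i j - gi d.s₂ z.2 i j| ≤
      4 * (n : ℝ) ^ 2 * (q.ε * Real.exp (-(100 * (d.l (mid z) - 2 * n)))) := by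
    have hL : ∀ x ∈ Ob z, d.l (mid z) - 2 * n ≤ lv n q.σ q.R d.kap d.Gs x := by
      intro x hx
      rw [← L.el hx]
      have h1 := lb_var (Ob_open z) (Ob_convex z) L.lb hx (mid_Ob z) (by norm_num)
      have h2 : ‖x - mid z‖ ≤ 1 := by
        have : dist x (mid z) < 1 := hx
        rw [dist_eq_norm] at this
        exact this.le
      have h3 := (abs_le.1 h1).1
      have h4 : n * 2 * ‖x - mid z‖ ≤ n * 2 * 1 := mul_le_mul_of_nonneg_left h2 (by positivity)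
      linarith
    have D := rg_dst h.rg (by norm_num) m.ε0 hR (O := Ob z) (by norm_num) hL
    obtain ⟨⟨g1, g2⟩, ⟨g3, g4⟩, g5, g6⟩ := gi12 h m.toLm z.2
    refine inv_sub g1 g4 (fun i j => ?_) g5 g6 i j
    rw [abs_sub_comm]
    exact D.b0 z.2 L.hy i j
  obtain ⟨-, -, l1, l2⟩ := A.l_ge h m
  have e3 : Real.exp (-(100 * (d.l (mid z) - 2 * n))) ≤ √(d.r2 z) := by
    refine le_trans ?_ (r_ge m A)
    rw [Real.exp_le_exp]
    nlinarith
  have e4 : q.ε * Real.exp (-(100 * (d.l (mid z) - 2 * n))) ≤ 1 * √(d.r2 z) :=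
    mul_le_mul m.ε1 e3 (Real.exp_pos _).le zero_le_one
  have e5 : 4 * (n : ℝ) ^ 2 + 1 ≤ Bn n := by
    have := muB_ge
    unfold Bn Au
    nlinarith [sq_nonneg (n : ℝ)]
  have e6 : gi d.s₁ z.1 i j - gi d.s₂ z.2 i j = (gi d.s₁ z.1 i j - gi d.s₁ z.2 i j) +
      (gi d.s₁ z.2 i j - gi d.s₂ z.2 i j) := by ring
  rw [e6]
  refine (abs_add_le _ _).trans ?_
  have e7 := mul_le_mul_of_nonneg_left e4 (by positivity : 0 ≤ 4 * (n : ℝ) ^ 2)
  have e8 := mul_le_mul_of_nonneg_right e5 r0.le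
  linarith

/-- The covectors of the fields. -/
def C1 (c₁ : ℝ) (q : Cst) (d : Pk n) (j : Fin n) (z : VV n) : ℝ :=
  ∑ l, gi d.s₁ z.1 j l * (d.wn q).c₁ (kE c₁ d q) l z

def C2 (c₁ : ℝ) (q : Cst) (d : Pk n) (j : Fin n) (z : VV n) : ℝ :=
  ∑ l, gi d.s₂ z.2 j l * (d.wn q).c₂ (kE c₁ d q) l z

/-- The constants of the fields. -/
def A0 (n : ℕ) : ℝ := 5 * Bn n ^ 2 * Cz (Bn n)

def A1 (n : ℕ) (q : Cst) : ℝ := 5 * (Bk n q ^ 39) ^ 2 * Cz (Bk n q ^ 39)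

theorem A1_nb (n : ℕ) : NB_rT (A1 n) := fun _ => rfl

/-- `κ / E ≤ r`. -/
theorem k_le_r (hc : 0 < c₁) (hc1 : c₁ ≤ 1 / 3) (h : PkOk q d) (m : Zn n a X q) (ha : a ≤ 1 / 64)
    (A : Al a X q d z) : kz c₁ d q z / Real.exp (d.u q z) ≤ √(d.r2 z) := by
  obtain ⟨k0, k1⟩ := kz_b hc h m A
  have hE : 0 < Real.exp (d.u q z) := Real.exp_pos _
  have r0 : 0 < √(d.r2 z) := Real.sqrt_pos.2 A.r0
  obtain ⟨-, r1, r2, -⟩ := al_num h m A
  rw [div_le_iff₀ hE]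
  have e : d.m q z = Real.exp (d.u q z) * d.r2 z := rfl
  have h2 : 3 * c₁ * d.m q z ≤ 1 * d.m q z :=
    mul_le_mul_of_nonneg_right (by linarith) (by rw [e]; exact mul_nonneg hE.le A.r0.le)
  have h5 : √(d.r2 z) * √(d.r2 z) ≤ 1 * √(d.r2 z) :=
    mul_le_mul_of_nonneg_right (by linarith) r0.le
  have h3 : d.r2 z ≤ 1 * √(d.r2 z) := by
    rw [← pow_two, r2] at h5
    exact h5
  have h4 := mul_le_mul_of_nonneg_left h3 hE.le
  rw [one_mul] at h2 h4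
  rw [e] at h2 k1
  linarith

/-- **The fields, with the constants of the slope.** -/
theorem fb_pk (hc : 0 < c₁) (hc1 : c₁ ≤ 1 / 3) (h : PkOk q d) (m : Zn n a X q) (ha : a ≤ 1 / 64)
    (A : Al a X q d z) : FB d.sx d.sy (C1 c₁ q d) (C2 c₁ q d) ((d.wn q).c₁ (kE c₁ d q))
      ((d.wn q).c₂ (kE c₁ d q)) (A1 n q) (d.E q z) (d.N q z) (√(d.r2 z)) (kz c₁ d q z) z := by
  obtain ⟨b1, b2⟩ := Bk_ge m.nr
  obtain ⟨b3, -⟩ := Bn_ge n
  have bk : 2 ≤ Bk n q := by linarith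
  have hB : Bk n q ≤ Bk n q ^ 39 := le_self_pow₀ (by linarith) (by norm_num)
  have W := okMono (wn_ok h m ha A) (b1.trans hB)
  have B2 := W.B2
  obtain ⟨⟨g1, g2⟩, -, g5, -⟩ := gi12 h m.toLm z.1
  obtain ⟨-, ⟨g3, g4⟩, -, g6⟩ := gi12 h m.toLm z.2
  have p1 := ((kE_p1 (un_sx d.s₁) hc h m ha A fun i => (kz_D hc h m A i).1).base bk
    le_rfl).up B2 (n := 16) (by norm_num)
  have p2 := ((kE_p1 (un_sy d.s₂) hc h m ha A fun i => (kz_D hc h m A i).2).base bk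
    le_rfl).up B2 (n := 16) (by norm_num)
  have F := W.FB (s₁ := d.s₁) (s₂ := d.s₂) (G₁ := gi d.s₁ z.1) (G₂ := gi d.s₂ z.2)
    (k := kz c₁ d q z) (kE := kE c₁ d q) g2 g4 (fun i j => (g5 i j).trans (by linarith))
    (fun i j => (g6 i j).trans (by linarith))
    (fun i j => (gi_dif h m A i j).trans
      (mul_le_mul_of_nonneg_right (b1.trans hB) (Real.sqrt_nonneg _)))
    p1 p2 (k_le_r hc hc1 h m ha A)
  exact ⟨F.e₁, F.e₂, F.b₁, F.b₂, F.df, F.d₁, F.d₂⟩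

/-- **The values of the fields, with a constant of `n`.** -/
theorem fb_val (hc : 0 < c₁) (hc1 : c₁ ≤ 1 / 3) (h : PkOk q d) (m : Zn n a X q) (ha : a ≤ 1 / 64)
    (A : Al a X q d z) :
    (∀ i, (d.wn q).c₁ (kE c₁ d q) i z = ∑ j, d.sx.s i j z * C1 c₁ q d j z) ∧
      (∀ i, (d.wn q).c₂ (kE c₁ d q) i z = ∑ j, d.sy.s i j z * C2 c₁ q d j z) ∧
      (∀ j, |C1 c₁ q d j z| ≤ A0 n) ∧ (∀ j, |C2 c₁ q d j z| ≤ A0 n) ∧
      ∀ j, |C1 c₁ q d j z - C2 c₁ q d j z| ≤ A0 n * (√(d.r2 z) +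
        (d.N q z + kz c₁ d q z) / (d.E q z * √(d.r2 z))) := by
  obtain ⟨b3, -⟩ := Bn_ge n
  have W := wn_ok h m ha A
  have B2 := W.B2
  obtain ⟨⟨g1, g2⟩, -, g5, -⟩ := gi12 h m.toLm z.1
  obtain ⟨-, ⟨g3, g4⟩, -, g6⟩ := gi12 h m.toLm z.2
  obtain ⟨k0, -⟩ := kz_b hc h m A
  obtain ⟨a1, a2⟩ := a_le h m.toLm A.lo
  have hE : 0 < Real.exp (d.u q z) := Real.exp_pos _
  have hv : |kE c₁ d q z| ≤ Bn n ^ 1 * (kz c₁ d q z / Real.exp (d.u q z)) := by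
    unfold kE
    rw [abs_of_pos (by positivity), pow_one]
    have h1 : 1 / 4 ≤ (d.wn q).a z ^ 2 := by nlinarith
    have h2 : 0 < kz c₁ d q z / Real.exp (d.u q z) := by positivity
    have h3 : 16 * kz c₁ d q z / (Real.exp (d.u q z) * (d.wn q).a z ^ 2) =
        16 / (d.wn q).a z ^ 2 * (kz c₁ d q z / Real.exp (d.u q z)) := by field_simp
    rw [h3]
    refine mul_le_mul_of_nonneg_right ?_ h2.le
    rw [div_le_iff₀ (by positivity)]
    nlinarith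
  have key : ∀ {κ : Type} {σ : Sl (VV n) κ}, P1 σ (√(d.r2 z)) z (Bn n) (fun _ => kE c₁ d q z) 16
      (kz c₁ d q z / Real.exp (d.u q z)) := by
    intro κ σ
    have h0 : P1 σ (√(d.r2 z)) z (Bn n) (fun _ => kE c₁ d q z) 1
        (kz c₁ d q z / Real.exp (d.u q z)) := by
      refine ⟨differentiableAt_const _, hv, fun j => ?_⟩
      have e1 : σ.D j (fun _ : VV n => kE c₁ d q z) z = 0 := by simp [H961.GW.Sl.D]
      rw [e1, abs_zero, zero_mul]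
      positivity
    exact h0.up B2 (by norm_num)
  have F := W.FB (s₁ := d.s₁) (s₂ := d.s₂) (G₁ := gi d.s₁ z.1) (G₂ := gi d.s₂ z.2)
    (k := kz c₁ d q z) (kE := fun _ => kE c₁ d q z) g2 g4 (fun i j => (g5 i j).trans (by linarith))
    (fun i j => (g6 i j).trans (by linarith)) (fun i j => gi_dif h m A i j)
    key key (k_le_r hc hc1 h m ha A)
  exact ⟨F.e₁, F.e₂, F.b₁, F.b₂, F.df⟩

end Vale.Agent.P088.R2.H606.EP
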