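import Vale.Agent.P088.R2.H606.EP.Al
import Vale.Agent.P088.R2.H606.Z.Ke
import Vale.Agent.P088.R2.H983.Fl.Zi

/-!
# P088, stage 3, zone II: the convexity `k` on the package
-/

open Set Filter
open scoped ContDiff Topology Matrix

noncomputable section

namespace Vale.Agent.P088.R2.H606.EP

open Vale.Agent.P088.LR Vale.Agent.P088.HY Vale.Agent.P088.R2.H464.Cu Vale.Agent.P088.R2.H31.EP
open Vale.Agent.P088.R2.H932.EP (Cd dN mu2 kk kq ca cb cQ JB wt ep mu2_pos mu2_le cQ_nn cA_nn)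
open Vale.Agent.P088.R2.H606.Ke (kf)
open Vale.Agent.P088.R2.H983.Fl (P1 Un un_sx un_sy)
open Vale.Agent.P088.R2.H961.GW (Sl slx sly)

variable {n : ℕ} {q : Cst} {d : Pk n} {z : VV n} {a X c₁ : ℝ}

/-- The coefficient of `μ''`. -/
def Am : ℝ := 3 / 2 * H313.Mu.dl 1

/-- The level above which `μ₂` is active. -/
def t0 (q : Cst) : ℝ := H313.Mu.sz q.M₀ + 1 + 87 / 20000 * Real.log q.M₀

/-- The literal convexity `k`. -/
def kz (c₁ : ℝ) (d : Pk n) (q : Cst) : VV n → ℝ :=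
  kk c₁ (q.σ / q.R) (deriv (deriv d.Φ)) (mu2 Am 400 (t0 q)) (d.u q) (rq (gi d.s₁))
    fun z => d.l (mid z)

theorem dl1 : 1 ≤ H313.Mu.dl 1 ∧ H313.Mu.dl 1 ≤ 3 / 2 := by
  have e : H313.Mu.dl 1 = (131 / 100 : ℝ) ^ (3 / 2 : ℝ) := by unfold H313.Mu.dl; ring
  rw [e]
  constructor
  · exact Real.one_le_rpow (by norm_num) (by norm_num)
  · have h1 : ((131 / 100 : ℝ) ^ (3 / 2 : ℝ)) ^ 2 = (131 / 100) ^ 3 := by
      rw [← Real.rpow_natCast, ← Real.rpow_mul (by norm_num)]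
      norm_num
    have h2 : 0 ≤ (131 / 100 : ℝ) ^ (3 / 2 : ℝ) := by positivity
    nlinarith

theorem Am_b : 3 / 2 ≤ Am ∧ Am ≤ 9 / 4 := by
  obtain ⟨h1, h2⟩ := dl1
  unfold Am
  constructor <;> linarith

/-- `k` in the form of the estimates. -/
theorem kz_eq (c₁ : ℝ) (d : Pk n) (q : Cst) (z : VV n) :
    kz c₁ d q z = kf c₁ (d.m q z) (d.Kf q z) (mu2 Am 400 (t0 q) (d.l (mid z))) (q.σ / q.R) := by
  have e : H932.EP.mm (d.u q) (rq (gi d.s₁)) z = d.m q z := by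
    unfold H932.EP.mm
    show 2 * Real.exp (d.u q z) * rq (gi d.s₁) z = Real.exp (d.u q z) * (2 * rq (gi d.s₁) z)
    ring
  unfold kz kk kf kq
  rw [e]
  unfold Pk.Kf
  ring

/-- `0 < k ≤ 3 c₁ m`. -/
theorem kz_b (hc : 0 < c₁) (h : PkOk q d) (m : Zn n a X q) (A : Al a X q d z) :
    0 < kz c₁ d q z ∧ kz c₁ d q z ≤ 3 * c₁ * d.m q z := by
  have hR : 0 < q.R := by linarith [m.R1]
  have hσ := m.σ0
  have hm : 0 < d.m q z := by linarith [m.X0, A.mX]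
  have hK : 0 < d.Kf q z := K_pos h _
  obtain ⟨-, -, hl, -⟩ := A.l_ge h m
  obtain ⟨a1, a2⟩ := Am_b
  have h1 := mu2_pos (A := Am) (C := 400) (t₀ := t0 q) (s := d.l (mid z)) (by linarith) (by linarith)
  have h2 := mu2_le (A := Am) (C := 400) (t₀ := t0 q) (s := d.l (mid z)) (by linarith) (by linarith)
  have h3 : d.l (mid z) ^ (-(5 / 2) : ℝ) ≤ 199 ^ (-(5 / 2) : ℝ) :=
    Real.rpow_le_rpow_of_nonpos (by norm_num) hl (by norm_num)
  have h4 : (199 : ℝ) ^ (-(5 / 2) : ℝ) ≤ 199 ^ (-1 : ℝ) :=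
    Real.rpow_le_rpow_of_exponent_le (by norm_num) (by norm_num)
  have h5 : (199 : ℝ) ^ (-1 : ℝ) = 1 / 199 := by rw [Real.rpow_neg_one]; norm_num
  have h6 : 0 ≤ d.l (mid z) ^ (-(5 / 2) : ℝ) := Real.rpow_nonneg (by linarith) _
  have hM1 : mu2 Am 400 (t0 q) (d.l (mid z)) ≤ 1 := by
    refine h2.trans ?_
    nlinarith
  have hS0 : 0 < q.σ / q.R := by positivity
  have hS1 : q.σ / q.R ≤ 1 := by
    rw [div_le_one hR]
    have := m.σ1
    have := m.R1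
    linarith
  have hq1 : d.Kf q z / (d.Kf q z + d.m q z) ≤ 1 := by
    rw [div_le_one (by positivity)]; linarith
  have hq0 : 0 < d.Kf q z / (d.Kf q z + d.m q z) := by positivity
  rw [kz_eq]
  unfold kf
  constructor
  · positivity
  · have h7 : d.Kf q z / (d.Kf q z + d.m q z) + mu2 Am 400 (t0 q) (d.l (mid z)) + q.σ / q.R ≤ 3 := by
      linarith
    calc c₁ * d.m q z * (d.Kf q z / (d.Kf q z + d.m q z) + mu2 Am 400 (t0 q) (d.l (mid z)) +
          q.σ / q.R) ≤ c₁ * d.m q z * 3 := mul_le_mul_of_nonneg_left h7 (by positivity)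
      _ = _ := by ring

/-- The constant of the derivatives of `k`; it depends on the constants of the slope. -/
def Ck (n : ℕ) (q : Cst) : ℝ := 3 * ca (cQ n (dN q)) (cQ n (dN q)) (dN q) 400

theorem Ck_nb (n : ℕ) : NB_rT (Ck n) := fun _ => rfl

theorem Ck_nonneg (nr : H932.EP.NrC n q) : 0 ≤ Ck n q := by
  have h1 := nr.dN_ge
  have h2 := cQ_nn (n := n) (D := dN q) (by linarith)
  unfold Ck ca
  have : 0 ≤ dN q := by linarith
  positivity

/-- The logarithmic derivatives of `k`. -/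
theorem kz_jb (hc : 0 < c₁) (h : PkOk q d) (m : Zn n a X q) (A : Al a X q d z) :
    JB ep (wt (rq (gi d.s₁) z)) (kz c₁ d q)
      (ca (cQ n (dN q)) (cQ n (dN q)) (dN q) 400 * kz c₁ d q z)
      (cb (cQ n (dN q)) (cQ n (dN q)) (cQ n (dN q)) (dN q) 400 * kz c₁ d q z) z := by
  have hR : 0 < q.R := by linarith [m.R1]
  have hσ := m.σ0
  have hD := m.nr.dN_ge
  obtain ⟨-, -, hl, -⟩ := A.l_ge h m
  obtain ⟨a1, a2⟩ := Am_b
  have K0 := K_pos h (d.u q z)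
  have hρ : 0 < rq (gi d.s₁) z := by
    have h1 : 0 < 2 * rq (gi d.s₁) z := A.r0
    linarith
  have c1 := m.nr.Ct0 1
  have c2 := m.nr.Ct0 2
  have cs := H932.EP.cSt_one
  have cx := cXi_nonneg
  have cd := H932.EP.cD_two
  have p1 : 0 ≤ 3 * H932.EP.cSt * q.ph.Ct 1 + 8 * H932.EP.cSt ^ 2 +
      (2 * (1 + cXi) ^ 2 + (1 + cXi)) := by positivity
  have d1 : q.ph.Ct 1 ≤ dN q := by unfold dN; linarith
  have d2 : q.ph.Ct 2 ≤ dN q := by unfold dN; linarith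
  have e1 : deriv (deriv (deriv d.Φ)) (d.u q z) = iteratedDeriv (1 + 2) d.Φ (d.u q z) := by
    rw [iteratedDeriv_succ, iteratedDeriv_succ, iteratedDeriv_one]
  have e2 : deriv (deriv (deriv (deriv d.Φ))) (d.u q z) =
      iteratedDeriv (2 + 2) d.Φ (d.u q z) := by
    rw [iteratedDeriv_succ, iteratedDeriv_succ, iteratedDeriv_succ, iteratedDeriv_one]
  refine A.cd.kk (Am := Am) (Cm := 400) (t₀ := t0 q) (S₀ := q.σ / q.R) (by linarith) hρ hc.le
    (by positivity) (by linarith) (by norm_num) (by linarith)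
    (h.Φ''s.contDiffAt.of_le (WithTop.coe_le_coe.2 le_top)) K0 ?_ ?_
  · rw [e1]
    exact (K_dj h 1 A.ta).trans (mul_le_mul_of_nonneg_right d1 K0.le)
  · rw [e2]
    exact (K_dj h 2 A.ta).trans (mul_le_mul_of_nonneg_right d2 K0.le)

/-- **`|D k| ≤ C k / r`.** -/
theorem kz_D (hc : 0 < c₁) (h : PkOk q d) (m : Zn n a X q) (A : Al a X q d z) (i : Fin n) :
    |d.sx.D i (kz c₁ d q) z| ≤ Ck n q * (kz c₁ d q z / √(d.r2 z)) ∧
      |d.sy.D i (kz c₁ d q) z| ≤ Ck n q * (kz c₁ d q z / √(d.r2 z)) := by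
  have hD := m.nr.dN_ge
  have hQ := cQ_nn (n := n) (D := dN q) (by linarith)
  have hρ : 0 < rq (gi d.s₁) z := by
    have h1 : 0 < 2 * rq (gi d.s₁) z := A.r0
    linarith
  have hr1 : rq (gi d.s₁) z ≤ 1 := A.cd.ρ1
  have := (kz_jb hc h m A).slot (g := gi d.s₁) (s := d.s₁) (r := √(d.r2 z)) hρ hr1
    (by unfold ca; have : 0 ≤ dN q := by linarith
        positivity) (kz_b hc h m A).1.le
    (Real.sqrt_pos.2 A.r0) (by rw [Real.sq_sqrt A.r0.le]; rfl) i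
  have e : Ck n q = 3 * ca (cQ n (dN q)) (cQ n (dN q)) (dN q) 400 := rfl
  rw [e]
  exact this

end Vale.Agent.P088.R2.H606.EP
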