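import Vale.Agent.P088.R2.H606.EP.Fb
import Vale.Agent.P088.R2.H606.Z.W1

/-!
# P088, stage 3, zone II: `W1`, `SB`, the energies and the errors of the fields on the package
-/

open Set Filter
open scoped ContDiff Topology Matrix

noncomputable section

namespace Vale.Agent.P088.R2.H606.EP

open Vale.Agent.P088.LR Vale.Agent.P088.HY Vale.Agent.P088.R2.H464.Cu Vale.Agent.P088.R2.H31.EP
open Vale.Agent.P088.R2.H961.GW (Sl slx sly Sm)
open Vale.Agent.P088.R2.H606.Z (D2 FS Pt Wg SB SM c1W cF c00 c00_pos c00_mul cF_pos)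

variable {n : ℕ} {q : Cst} {d : Pk n} {z : VV n} {a X c₁ : ℝ}

section cg

variable {E ι : Type*} [NormedAddCommGroup E] [NormedSpace ℝ E] [Fintype ι] {σ τ : Sl E ι}
  {W W' : E → ℝ} {z : E}

omit [Fintype ι] in
theorem D_ev (e : W =ᶠ[𝓝 z] W') (i : ι) : σ.D i W =ᶠ[𝓝 z] σ.D i W' := by
  filter_upwards [e.eventuallyEq_nhds] with y hy
  simp only [Sl.D, hy.fderiv_eq]

omit [Fintype ι] in
theorem D_eq (e : W =ᶠ[𝓝 z] W') (i : ι) : σ.D i W z = σ.D i W' z := (D_ev e i).eq_of_nhds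

theorem F_eq (e : W =ᶠ[𝓝 z] W') : σ.F W z = σ.F W' z := by
  unfold Sl.F Sl.Γ
  simp only [D_eq e]

theorem L_eq (e : W =ᶠ[𝓝 z] W') : σ.Λ W z = σ.Λ W' z := by
  unfold Sl.Λ
  have h : ∀ i j, σ.D i (σ.D j W) z = σ.D i (σ.D j W') z := fun i j => D_eq (D_ev e j) i
  simp only [D_eq e, h]

theorem W1_cg {A En N r : ℝ} (e : W =ᶠ[𝓝 z] W') (h : R2.H870.Z2.W1 σ τ W' A En N r z) :
    R2.H870.Z2.W1 σ τ W A En N r z where
  x i := by rw [D_eq e]; exact h.x i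
  y i := by rw [D_eq e]; exact h.y i
  s i := by rw [D_eq e, D_eq e]; exact h.s i
  F₁ := by rw [F_eq e]; exact h.F₁
  F₂ := by rw [F_eq e]; exact h.F₂

theorem SB_cg {C c e' r : ℝ} (e : W =ᶠ[𝓝 z] W') (h : SB σ W' C c e' r z) : SB σ W C c e' r z where
  W1 i := by rw [D_eq e]; exact h.W1 i
  W2 := by rw [L_eq e]; exact h.W2
  F0 := by rw [F_eq e]; exact h.F0

end cg

theorem D2.mono {U : Set (VV n)} {A B : ℝ} {u : VV n → ℝ} (h : D2 U A u) (hB : A ≤ B) :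
    D2 U B u where
  op := h.op
  sm := h.sm
  d1 z hz w := (h.d1 z hz w).trans (mul_le_mul_of_nonneg_right hB (norm_nonneg _))
  d2 z hz w w' := (h.d2 z hz w w').trans (mul_le_mul_of_nonneg_right hB (by positivity))

/-- The smallness of `r` and `N / (E r)`. -/
def aN (n : ℕ) : ℝ := c00 n (Bn n)

theorem aN_b (hn : 0 < n) : 0 < aN n ∧ aN n ≤ 1 / 64 := by
  obtain ⟨b, -⟩ := Bn_ge n
  have h0 : (0 : ℝ) ≤ Bn n := by linarith
  refine ⟨c00_pos hn h0, ?_⟩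
  have hn1 : (1 : ℝ) ≤ n := by exact_mod_cast hn
  unfold aN c00
  refine one_div_le_one_div_of_le (by norm_num) ?_
  have b1 : (64 : ℝ) ≤ 64 * n := by linarith
  have b2 : 1 ≤ (1 + Bn n) ^ 2 := one_le_pow₀ (by linarith)
  have b3 : (1 : ℝ) ≤ 1 + 4 * (n : ℝ) ^ 3 := by
    have : (0 : ℝ) ≤ (n : ℝ) ^ 3 := by positivity
    linarith
  calc (64 : ℝ) = 64 * 1 * 1 := by ring
    _ ≤ 64 * n * (1 + Bn n) ^ 2 * (1 + 4 * (n : ℝ) ^ 3) := by gcongr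

/-- The numbers at the point. -/
theorem pt_pk (h : PkOk q d) (m : Zn n a X q) (ha : a ≤ 1 / 64) (A : Al a X q d z) :
    Pt (Bn n) a (deriv d.Φ) (deriv (deriv d.Φ)) (prS q.e₁) (prS₁ q.e₁) (prS₂ q.e₁) (d.u q)
      (gi d.s₁) (√(d.r2 z)) z := by
  obtain ⟨b, -⟩ := Bn_ge n
  obtain ⟨r0, r1, r2, hN, hN0⟩ := al_num h m A
  have hE : 0 < d.E q z := Real.exp_pos _
  have p1 : d.r2 z < 1 := by
    have := A.r4
    have := m.c1
    have := m.c0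
    nlinarith
  have pn := pn_ok m.eg0 A.r0.le p1
  have e : 2 * rq (gi d.s₁) z = d.r2 z := rfl
  have hB : ∀ {x c : ℝ}, x ≤ c * d.r2 z → c ≤ 112 → x ≤ Bn n * √(d.r2 z) ^ 2 := by
    intro x c h1 h2
    rw [r2]
    exact h1.trans (mul_le_mul_of_nonneg_right (by linarith) A.r0.le)
  refine ⟨r0, by linarith, by rw [r2]; rfl, ?_, ?_, ?_, ?_, ?_⟩
  · rw [e, abs_of_nonneg (by linarith [pn.lo, A.r0])]
    exact hB pn.hi (by norm_num)
  · rw [e, abs_of_nonneg (by linarith [pn.l1])]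
    refine hB (c := 16) ?_ (by norm_num)
    linarith [pn.h1]
  · rw [e, abs_of_nonneg pn.l2]
    linarith [pn.h2]
  · have : |deriv d.Φ (d.u q z)| = d.N q z := abs_of_pos hN0
    rw [this]
    exact hN
  · have K0 := K_pos h (d.u q z)
    have K1 := K_le h m.toNm A.ta
    rw [abs_of_pos K0]
    refine K1.trans ?_
    have h1 : deriv d.Φ (d.u q z) ≤ 1 / 64 * (d.E q z * 1) := by
      refine hN.trans ?_
      have h2 : d.E q z * √(d.r2 z) ≤ d.E q z * 1 := mul_le_mul_of_nonneg_left (by linarith) hE.le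
      exact mul_le_mul ha h2 (by positivity) (by norm_num)
    have h3 : 0 < Real.exp (d.u q z) := hE
    have h4 : d.E q z = Real.exp (d.u q z) := rfl
    rw [h4] at h1
    linarith

/-- The functions of one variable. -/
theorem fs_pk (h : PkOk q d) (m : Lm n q) : FS d.Φ (deriv d.Φ) (deriv (deriv d.Φ)) (prS q.e₁)
    (prS₁ q.e₁) (prS₂ q.e₁) :=
  ⟨fun _ => ((h.Φs.differentiable (by simp)) _).hasDerivAt,
    fun _ => ((h.Φ's.differentiable (by simp)) _).hasDerivAt, prS_d1 m.eg0, prS_d2 m.eg0⟩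

/-- The constants of the weight. -/
def A2 (n : ℕ) : ℝ := c1W n (Bn n)

theorem W_ev (L : Loc q d z) : d.W q =ᶠ[𝓝 z] Wg d.Φ (prS q.e₁) (d.u q) (gi d.s₁) :=
  L.eW.eventuallyEq_of_mem (L.uo.mem_nhds L.uz)

/-- **`W1` on the package.** -/
theorem w1_pk (h : PkOk q d) (m : Zn n (aN n) X q) (A : Al (aN n) X q d z) :
    R2.H870.Z2.W1 d.sx d.sy (d.W q) (A2 n) (d.E q z) (d.N q z) (√(d.r2 z)) z := by
  have hn : 0 < n := m.n1
  obtain ⟨b, -, -, b4, -⟩ := Bn_ge n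
  obtain ⟨-, ha⟩ := aN_b hn
  obtain ⟨n1, n2, ng⟩ := ten h m.toLm (Ob z) (Ob_open z)
  obtain ⟨eT1, eT2⟩ := eT_le h m.toLm
  have hR : 0 < q.R := by linarith [m.R1]
  have hRi : q.R⁻¹ ≤ 1 := inv_le_one_of_one_le₀ m.R1
  have hRi0 : 0 ≤ q.R⁻¹ := inv_nonneg.2 hR.le
  have dT : cT n * q.ε * q.R⁻¹ ≤ 1 := by
    have := mul_le_mul eT2 hRi hRi0 (by norm_num)
    linarith
  obtain ⟨r0, r1, -, -, hN0⟩ := al_num h m A
  have := H606.Z.w1_of (pt_pk h m ha A) hn (fs_pk h m.toLm)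
    (D2.mono (d2_u h m.toLm A.lo) b4) A.lo.uz (Ob_open z) ng (by linarith) dT (mid_Ob z)
    (by linarith) le_rfl r1 n1 (by linarith) n2 (by linarith) A.lo.hx A.lo.hy
  have e : |deriv d.Φ (d.u q z)| = d.N q z := abs_of_pos hN0
  rw [e] at this
  exact W1_cg (W_ev A.lo) this

/-- **`SB` on the package.** -/
theorem sb_pk (h : PkOk q d) (m : Zn n (aN n) X q) (A : Al (aN n) X q d z) :
    SB d.sx (d.W q) (3 * (n : ℝ) ^ 2 * A2 n) (cF n) (d.E q z) (√(d.r2 z)) z ∧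
    SB d.sy (d.W q) (3 * (n : ℝ) ^ 2 * A2 n) (cF n) (d.E q z) (√(d.r2 z)) z := by
  have hn : 0 < n := m.n1
  obtain ⟨b, -, -, b4, -⟩ := Bn_ge n
  obtain ⟨-, ha⟩ := aN_b hn
  obtain ⟨n1, n2, ng⟩ := ten h m.toLm (Ob z) (Ob_open z)
  obtain ⟨eT1, eT2⟩ := eT_le h m.toLm
  have hR : 0 < q.R := by linarith [m.R1]
  have hRi : q.R⁻¹ ≤ 1 := inv_le_one_of_one_le₀ m.R1
  have hRi0 : 0 ≤ q.R⁻¹ := inv_nonneg.2 hR.le
  have dT : cT n * q.ε * q.R⁻¹ ≤ 1 := by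
    have := mul_le_mul eT2 hRi hRi0 (by norm_num)
    linarith
  have hc := cT_ge n
  have eT0 : 0 ≤ cT n * q.ε := mul_nonneg (by linarith) m.ε0
  have dT2 : cT n * q.ε * q.R⁻¹ ^ 2 ≤ 1 := by
    have h1 : cT n * q.ε * q.R⁻¹ ^ 2 = cT n * q.ε * q.R⁻¹ * q.R⁻¹ := by ring
    rw [h1]
    have := mul_le_mul dT hRi hRi0 (by norm_num)
    linarith
  obtain ⟨r0, r1, -, -, hN0⟩ := al_num h m A
  have := H606.Z.sb_of (pt_pk h m ha A) hn (fs_pk h m.toLm)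
    (D2.mono (d2_u h m.toLm A.lo) b4) A.lo.uz (Ob_open z) ng (by linarith) dT dT2 (mid_Ob z)
    (by linarith) le_rfl r1 n1 (by linarith) n2 (by linarith) A.lo.hx A.lo.hy dT dT
  exact ⟨SB_cg (W_ev A.lo) this.1, SB_cg (W_ev A.lo) this.2⟩

/-- The tensors of the slots. -/
theorem sm_pk (h : PkOk q d) (m : Lm n q) (z : VV n) : SM d.sx z ∧ SM d.sy z := by
  obtain ⟨n1, n2, -⟩ := ten h m univ isOpen_univ
  obtain ⟨eT1, eT2⟩ := eT_le h m
  have hR : 0 < q.R := by linarith [m.R1]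
  have hRi : q.R⁻¹ ≤ 1 := inv_le_one_of_one_le₀ m.R1
  have hRi0 : 0 ≤ q.R⁻¹ := inv_nonneg.2 hR.le
  have dT : cT n * q.ε * q.R⁻¹ ≤ 1 := by
    have := mul_le_mul eT2 hRi hRi0 (by norm_num)
    linarith
  exact ⟨H606.Z.SM_x isOpen_univ n1 (by linarith) dT (mem_univ _),
    H606.Z.SM_y isOpen_univ n2 (by linarith) dT (mem_univ _)⟩

end Vale.Agent.P088.R2.H606.EP
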